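import Vale.Agent.P264.Bdl.B4

/-!
# P264 / H849 / Data : localised initial data (cut-off at an arbitrary scale)

Copy of `P264 / B / Data`, `Data3` with the fixed cut-off `chi0` replaced by a cut-off `ζ`
which is `1` for `x ≤ xb` and `0` for `x ≥ 1/2`.
-/

set_option linter.all false

open Set Filter Topology Real MeasureTheory
open scoped ContDiff

namespace P264.L

open P264.B

/-- A cut-off in `x`: `1` for `x ≤ xb`, `0` for `x ≥ 1/2`. -/
structure CutB (ζ : ℝ → ℝ) (xb : ℝ) : Prop where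
  smooth : ContDiff ℝ ∞ ζ
  xb_le : xb ≤ 1 / 4
  one : ∀ x ≤ xb, ζ x = 1
  zero : ∀ x, 1 / 2 ≤ x → ζ x = 0
  nonneg : ∀ x, 0 ≤ ζ x
  le_one : ∀ x, ζ x ≤ 1

/-- Smooth initial data `U₀` with `1/φ₀ = 1/x + 1/(1-x) + U₀'' = χ₀ m(log (x/ℓ))/x
+ (1-χ₀)(1/x+1/(1-x))`. -/
theorem exists_U0 {ζ : ℝ → ℝ} {xb : ℝ} (hζ : CutB ζ xb) {m : ℝ → ℝ} {p : Polynomial ℝ} (hm : ContDiff ℝ ∞ m) (hpos : ∀ z, 0 < m z)
    (hp : p.eval 0 = 1) {Z : ℝ} (hZ : ∀ z ≤ Z, m z = 1 / p.eval (exp z)) {ℓ : ℝ} (hℓ : 0 < ℓ) :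
    ∃ U₀ : ℝ → ℝ, IsInit U₀ ∧ U₀ 0 = 0 ∧ deriv U₀ 0 = 0 ∧
      ∀ x, 0 < x → x < 1 → deriv (deriv U₀) x
        = ζ x * ((m (log (x / ℓ)) - 1) / x - 1 / (1 - x)) := by
  -- `p = 1 + y q`
  obtain ⟨q, hq⟩ : ∃ q : Polynomial ℝ, p = 1 + Polynomial.X * q := by
    have : Polynomial.X ∣ p - 1 := by
      rw [Polynomial.X_dvd_iff]
      have : (p - 1).coeff 0 = (p - 1).eval 0 := by
        rw [Polynomial.coeff_zero_eq_eval_zero]
      rw [this]
      simp [hp]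
    obtain ⟨q, hq⟩ := this
    exact ⟨q, by rw [← hq]; ring⟩
  have hpe : ∀ y, p.eval y = 1 + y * q.eval y := by
    intro y; rw [hq]; simp
  -- `p > 0` on `[-3δ, y_a]`
  have hpc : Continuous fun y => p.eval y := p.continuous
  obtain ⟨δ, hδ, hδp⟩ : ∃ δ > 0, ∀ y, |y| < 4 * δ → 0 < p.eval y := by
    have h1 : ∀ᶠ y in nhds (0 : ℝ), 0 < p.eval y :=
      hpc.continuousAt.eventually (lt_mem_nhds (by simp only [hp]; exact one_pos))
    obtain ⟨ε, hε, h⟩ := Metric.eventually_nhds_iff.1 h1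
    refine ⟨ε / 4, by positivity, fun y hy => h ?_⟩
    rw [dist_zero_right, Real.norm_eq_abs]
    linarith only [hy]
  -- cut-off on the negative side
  set χ₁ : ℝ → ℝ := fun y => smoothTransition (2 + y / δ) with hχ₁
  have hχ₁c : ContDiff ℝ ∞ χ₁ :=
    smoothTransition.contDiff.comp (contDiff_const.add (contDiff_id.div_const _))
  have hχ₁1 : ∀ y, -δ ≤ y → χ₁ y = 1 := by
    intro y hy
    refine smoothTransition.one_of_one_le ?_
    have : -1 ≤ y / δ := by rw [le_div_iff₀ hδ]; linarith only [hy]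
    linarith only [this]
  have hχ₁0 : ∀ y, y ≤ -2 * δ → χ₁ y = 0 := by
    intro y hy
    refine smoothTransition.zero_of_nonpos ?_
    have : y / δ ≤ -2 := by rw [div_le_iff₀ hδ]; linarith only [hy]
    linarith only [this]
  set ya : ℝ := min (exp Z) (3 * δ) with hya
  have hya0 : 0 < ya := lt_min (exp_pos _) (by positivity)
  -- the two formulas
  set F₁ : ℝ → ℝ := fun x => χ₁ (x / ℓ) * ζ x *
    (ℓ⁻¹ * (-(q.eval (x / ℓ)) / p.eval (x / ℓ)) - 1 / (1 - x)) with hF₁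
  set F₂ : ℝ → ℝ := fun x => ζ x * ((m (log (x / ℓ)) - 1) / x - 1 / (1 - x)) with hF₂
  set K : ℝ → ℝ := fun x => if x ≤ 0 then F₁ x else if x < 1 then F₂ x else 0 with hK
  have hF12 : ∀ x, 0 < x → x < ℓ * ya → F₁ x = F₂ x := by
    intro x hx hx'
    have hy0 : 0 < x / ℓ := by (clear * - hx hℓ; positivity)
    have hy1 : x / ℓ < ya := by rw [div_lt_iff₀ hℓ]; linarith only [hx']
    have hy2 : x / ℓ < exp Z := hy1.trans_le (min_le_left _ _)
    have hpz : 0 < p.eval (x / ℓ) := hδp _ (by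
      rw [abs_of_pos hy0]
      have := hy1.trans_le (min_le_right _ _)
      linarith only [hδ, this])
    have h1 : χ₁ (x / ℓ) = 1 := hχ₁1 _ (by linarith only [hδ, hy0])
    have h2 : m (log (x / ℓ)) = 1 / p.eval (x / ℓ) := by
      rw [hZ _ ((log_lt_iff_lt_exp hy0).2 hy2).le, exp_log hy0]
    simp only [hF₁, hF₂, h1, h2]
    have h3 : 1 / p.eval (x / ℓ) - 1 = -(x / ℓ * q.eval (x / ℓ)) / p.eval (x / ℓ) := by
      rw [eq_div_iff hpz.ne', sub_mul, one_mul, one_div, inv_mul_cancel₀ hpz.ne']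
      rw [hpe]; ring
    rw [h3]
    have hx0 : x ≠ 0 := hx.ne'
    have hl0 : ℓ ≠ 0 := hℓ.ne'
    (clear * - hpz hl0 hx0; field_simp)
  -- local smoothness
  have hKA : ∀ x, 1 / 2 < x → ContDiffAt ℝ ∞ K x := by
    intro x hx
    have : K =ᶠ[nhds x] fun _ => 0 := by
      filter_upwards [Ioi_mem_nhds hx] with y hy
      have hy0 : ¬ y ≤ 0 := by
        have : (1:ℝ)/2 < y := hy
        intro h; linarith only [this, h]
      simp only [hK, hF₂, hy0, hζ.zero _ (le_of_lt hy), zero_mul, ite_self, if_false]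
    exact contDiffAt_const.congr_of_eventuallyEq this
  have hKB : ∀ x, 0 < x → x < 1 → ContDiffAt ℝ ∞ K x := by
    intro x hx hx'
    have : K =ᶠ[nhds x] F₂ := by
      filter_upwards [Ioo_mem_nhds hx hx'] with y hy
      have hy0 : ¬ y ≤ 0 := not_le.2 hy.1
      simp only [hK, hy0, if_false, hy.2, if_true]
    refine ContDiffAt.congr_of_eventuallyEq ?_ this
    have hxl : x / ℓ ≠ 0 := by (clear * - hx hℓ; positivity)
    have e1 : ContDiffAt ℝ ∞ (fun x => m (log (x / ℓ))) x :=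
      hm.contDiffAt.comp x ((contDiffAt_id.div_const ℓ).log hxl)
    exact hζ.smooth.contDiffAt.mul (((e1.sub contDiffAt_const).div contDiffAt_id hx.ne').sub
      (contDiffAt_const.div (contDiffAt_const.sub contDiffAt_id) (by
        change (1 : ℝ) - x ≠ 0; linarith only [hx'])))
  have hKC : ∀ x, x < min (ℓ * ya) 1 → ContDiffAt ℝ ∞ K x := by
    intro x hx
    have hx1 : x < ℓ * ya := hx.trans_le (min_le_left _ _)
    have hx2 : x < 1 := hx.trans_le (min_le_right _ _)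
    have hKF : K =ᶠ[nhds x] F₁ := by
      filter_upwards [Iio_mem_nhds hx] with y hy
      by_cases hy0 : y ≤ 0
      · simp only [hK, hy0, if_true]
      · have hy1 : y < ℓ * ya := lt_of_lt_of_le hy (min_le_left _ _)
        have hy2 : y < 1 := lt_of_lt_of_le hy (min_le_right _ _)
        simp only [hK, hy0, if_false, hy2, if_true]
        exact (hF12 y (not_le.1 hy0) hy1).symm
    refine ContDiffAt.congr_of_eventuallyEq ?_ hKF
    have hdiv : ContDiffAt ℝ ∞ (fun x : ℝ => x / ℓ) x := contDiffAt_id.div_const ℓ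
    by_cases hneg : x / ℓ < -2 * δ
    · have : F₁ =ᶠ[nhds x] fun _ => 0 := by
        have hx3 : x < -2 * δ * ℓ := by rwa [div_lt_iff₀ hℓ] at hneg
        filter_upwards [Iio_mem_nhds hx3] with y hy
        have : y / ℓ ≤ -2 * δ := by
          rw [div_le_iff₀ hℓ]; exact le_of_lt hy
        simp only [hF₁, hχ₁0 _ this, zero_mul]
      exact contDiffAt_const.congr_of_eventuallyEq this
    · have hpz : p.eval (x / ℓ) ≠ 0 := by
        refine (hδp _ ?_).ne'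
        rw [abs_lt]
        have h3 : x / ℓ < ya := by rw [div_lt_iff₀ hℓ]; linarith only [hx1]
        have h4 := h3.trans_le (min_le_right _ _)
        constructor <;> linarith only [hδ, h4, hneg]
      have hq' : ContDiffAt ℝ ∞ (fun x => q.eval (x / ℓ)) x := by
        have : ContDiff ℝ ∞ (fun y => q.eval y) := by simpa using q.contDiff_aeval (𝕜 := ℝ) ∞
        exact this.contDiffAt.comp x hdiv
      have hp' : ContDiffAt ℝ ∞ (fun x => p.eval (x / ℓ)) x := by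
        have : ContDiff ℝ ∞ (fun y => p.eval y) := by simpa using p.contDiff_aeval (𝕜 := ℝ) ∞
        exact this.contDiffAt.comp x hdiv
      have hχ' : ContDiffAt ℝ ∞ (fun x => χ₁ (x / ℓ)) x := hχ₁c.contDiffAt.comp x hdiv
      exact (hχ'.mul hζ.smooth.contDiffAt).mul
        ((contDiffAt_const.mul (hq'.neg.div hp' hpz)).sub
          (contDiffAt_const.div (contDiffAt_const.sub contDiffAt_id) (by
            change (1 : ℝ) - x ≠ 0; linarith only [hx2])))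
  have hKc : ContDiff ℝ ∞ K := by
    rw [contDiff_iff_contDiffAt]
    intro x
    rcases lt_or_ge x (min (ℓ * ya) 1) with h | h
    · exact hKC x h
    · have hx0 : 0 < x := (lt_min (by (clear * - hℓ hδ; positivity)) one_pos).trans_le h
      rcases lt_or_ge x 1 with h1 | h1
      · exact hKB x hx0 h1
      · exact hKA x (by linarith only [h1])
  obtain ⟨V, hV, hV0, dV⟩ := exists_primitive hKc 0 0
  obtain ⟨U, hU, hU0, dU⟩ := exists_primitive hV 0 0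
  have e1 : deriv U = V := funext fun x => (dU x).deriv
  have e2 : deriv (deriv U) = K := by rw [e1]; exact funext fun x => (dV x).deriv
  have hform : ∀ x, 0 < x → x < 1 → deriv (deriv U) x
        = ζ x * ((m (log (x / ℓ)) - 1) / x - 1 / (1 - x)) := by
    intro x hx hx'
    rw [e2]
    simp only [hK, not_le.2 hx, if_false, hx', if_true, hF₂]
  refine ⟨U, ⟨hU, ?_⟩, hU0, by rw [e1]; exact hV0, hform⟩
  intro x hx
  rcases hx.1.eq_or_lt with h | h
  · rw [← h]; simp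
  rcases hx.2.eq_or_lt with h' | h'
  · rw [h']; simp only [sub_self, mul_zero, zero_mul, add_zero, zero_lt_one]
  rw [hform x h h']
  have h1x : 0 < 1 - x := by linarith only [h']
  have key : 1 + x * (1 - x) * (ζ x * ((m (log (x / ℓ)) - 1) / x - 1 / (1 - x)))
      = (1 - ζ x) + ζ x * ((1 - x) * m (log (x / ℓ))) := by
    field_simp
    ring
  rw [key]
  have hmz := hpos (log (x / ℓ))
  rcases (hζ.nonneg x).eq_or_lt with hc | hc
  · rw [← hc]; norm_num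
  · have := mul_pos hc (mul_pos h1x hmz)
    linarith only [this, hζ.le_one x]

/-- `M(x) = x/φ₀(x)`. -/
noncomputable def Mt (ζ m : ℝ → ℝ) (ℓ x : ℝ) : ℝ :=
  ζ x * m (log (x / ℓ)) + (1 - ζ x) * (1 / (1 - x))

theorem cut_bounds {ζ : ℝ → ℝ} {xb : ℝ} (hζ : CutB ζ xb) : ∃ K : ℝ, 0 ≤ K ∧ ∀ x ∈ Icc (0 : ℝ) 1, |deriv ζ x| ≤ K ∧
    |deriv (deriv ζ) x| ≤ K := by
  have h1 : ContDiff ℝ ∞ (deriv ζ) := (contDiff_infty_iff_deriv.1 hζ.smooth).2
  have h2 : ContDiff ℝ ∞ (deriv (deriv ζ)) := (contDiff_infty_iff_deriv.1 h1).2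
  obtain ⟨K1, hK1⟩ := (isCompact_Icc (a := (0 : ℝ)) (b := 1)).exists_bound_of_continuousOn
    h1.continuous.continuousOn
  obtain ⟨K2, hK2⟩ := (isCompact_Icc (a := (0 : ℝ)) (b := 1)).exists_bound_of_continuousOn
    h2.continuous.continuousOn
  refine ⟨max (max K1 K2) 0, le_max_right _ _, fun x hx => ⟨?_, ?_⟩⟩
  · exact (hK1 x hx).trans ((le_max_left _ _).trans (le_max_left _ _))
  · exact (hK2 x hx).trans ((le_max_right _ _).trans (le_max_left _ _))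

section
variable {c₀ B ℓ : ℝ} {m : ℝ → ℝ}

theorem hasDerivAt_cut {ζ : ℝ → ℝ} {xb : ℝ} (hζ : CutB ζ xb) (x : ℝ) : HasDerivAt ζ (deriv ζ x) x :=
  ((hζ.smooth.differentiable (by simp)) x).hasDerivAt

theorem hasDerivAt_cut' {ζ : ℝ → ℝ} {xb : ℝ} (hζ : CutB ζ xb) (x : ℝ) : HasDerivAt (deriv ζ) (deriv (deriv ζ) x) x :=
  (((contDiff_infty_iff_deriv.1 hζ.smooth).2.differentiable (by simp)) x).hasDerivAt

/-- first derivative of `Mt`. -/
noncomputable def Mt1 (ζ m : ℝ → ℝ) (ℓ x : ℝ) : ℝ :=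
  deriv ζ x * m (log (x / ℓ)) + ζ x * (deriv m (log (x / ℓ)) / x)
    + (-deriv ζ x * (1 / (1 - x)) + (1 - ζ x) * (1 / (1 - x) ^ 2))

/-- second derivative of `Mt`. -/
noncomputable def Mt2 (ζ m : ℝ → ℝ) (ℓ x : ℝ) : ℝ :=
  (deriv (deriv ζ) x * m (log (x / ℓ)) + deriv ζ x * (deriv m (log (x / ℓ)) / x))
    + (deriv ζ x * (deriv m (log (x / ℓ)) / x)
      + ζ x * ((deriv (deriv m) (log (x / ℓ)) - deriv m (log (x / ℓ))) / x ^ 2))
    + ((-deriv (deriv ζ) x * (1 / (1 - x)) + -deriv ζ x * (1 / (1 - x) ^ 2))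
      + (-deriv ζ x * (1 / (1 - x) ^ 2) + (1 - ζ x) * (2 / (1 - x) ^ 3)))

theorem hasDerivAt_Mt {ζ : ℝ → ℝ} {xb : ℝ} (hζ : CutB ζ xb) (h : MBound c₀ B m) (hℓ : 0 < ℓ) {x : ℝ} (hx : x ∈ Ioo (0 : ℝ) 1) :
    HasDerivAt (Mt ζ m ℓ) (Mt1 ζ m ℓ x) x := by
  have h1 := hasDerivAt_cut hζ x
  have h2 := (h.d1 (log (x / ℓ))).comp x (hasDerivAt_logdiv hℓ hx.1)
  have h3 := hasDerivAt_one_sub_inv hx.2
  have h4 := (h1.mul h2).add ((h1.const_sub 1).mul h3)
  refine h4.congr_deriv ?_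
  unfold Mt1
  simp only [Function.comp]
  ring

theorem hasDerivAt_Mt1 {ζ : ℝ → ℝ} {xb : ℝ} (hζ : CutB ζ xb) (h : MBound c₀ B m) (hℓ : 0 < ℓ) {x : ℝ} (hx : x ∈ Ioo (0 : ℝ) 1) :
    HasDerivAt (Mt1 ζ m ℓ) (Mt2 ζ m ℓ x) x := by
  have hx0 : x ≠ 0 := hx.1.ne'
  have h1 := hasDerivAt_cut hζ x
  have h1' := hasDerivAt_cut' hζ x
  have h2 := (h.d1 (log (x / ℓ))).comp x (hasDerivAt_logdiv hℓ hx.1)
  have h2' := ((h.d2 (log (x / ℓ))).comp x (hasDerivAt_logdiv hℓ hx.1)).div (hasDerivAt_id x) hx0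
  have h3 := hasDerivAt_one_sub_inv hx.2
  have h3' := hasDerivAt_one_sub_inv2 hx.2
  have h4 := ((h1'.mul h2).add (h1.mul h2')).add ((h1'.neg.mul h3).add ((h1.const_sub 1).mul h3'))
  refine h4.congr_deriv ?_
  unfold Mt2
  simp only [Function.comp, id, Pi.neg_apply, Pi.div_apply]
  (clear * - hx0; field_simp)

theorem Mt_low {ζ : ℝ → ℝ} {xb : ℝ} (hζ : CutB ζ xb) (h : MBound c₀ B m) {x : ℝ} (hx : x ∈ Ioo (0 : ℝ) 1) :
    min c₀ 1 ≤ Mt ζ m ℓ x := by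
  unfold Mt
  have h1 := h.low (log (x / ℓ))
  have h2 : 1 ≤ 1 / (1 - x) := by
    rw [le_div_iff₀ (by linarith only [hx.2])]
    linarith only [hx.1]
  have h3 := hζ.nonneg x
  have h4 := hζ.le_one x
  have h5 : min c₀ 1 ≤ m (log (x / ℓ)) := (min_le_left _ _).trans h1
  have h6 : min c₀ 1 ≤ 1 / (1 - x) := (min_le_right _ _).trans h2
  nlinarith only [h3, h5, h4, h6]

theorem Mt_eq_half {ζ : ℝ → ℝ} {xb : ℝ} (hζ : CutB ζ xb) {x : ℝ} (hx : 1 / 2 ≤ x) : Mt ζ m ℓ x = 1 / (1 - x) := by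
  unfold Mt
  rw [hζ.zero _ hx]
  ring

/-- **Uniform bound for `x S₀`.** -/
theorem exists_scal_bound {ζ : ℝ → ℝ} {xb : ℝ} (hζ : CutB ζ xb) {c₀ B : ℝ} (hc : 0 < c₀) : ∃ C : ℝ, 0 ≤ C ∧
    ∀ (m : ℝ → ℝ) (_ : MBound c₀ B m) (ℓ : ℝ) (_ : 0 < ℓ) (φ : ℝ → ℝ)
      (_ : ∀ x ∈ Ioo (0 : ℝ) 1, φ x * (Mt ζ m ℓ x / x) = 1), ∀ x ∈ Ioo (0 : ℝ) 1,
        |x * scal 8 φ x| ≤ C := by
  obtain ⟨K, hK, hKb⟩ := cut_bounds hζ
  set c₁ := min c₀ 1 with hc₁
  have hc1 : 0 < c₁ := lt_min hc one_pos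
  set B' := max B 0 with hB'
  have hB0 : 0 ≤ B' := le_max_right _ _
  -- bound for `|x M'|`, `|x² M''|` on `(0, 3/4]`
  set P := K * B' + B' + 4 * K + 16 with hP
  set Q := K * B' + 2 * K * B' + 2 * B' + 4 * K + 32 * K + 128 with hQ
  have hP0 : 0 ≤ P := by (clear * - hK; positivity)
  have hQ0 : 0 ≤ Q := by (clear * - hK; positivity)
  refine ⟨56 + (56 / c₁ + 16 * (P / c₁ ^ 2) + (2 * P ^ 2 / c₁ ^ 3 + Q / c₁ ^ 2)) + 72,
    by (clear * - hc hK; positivity), ?_⟩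
  intro m hm ℓ hℓ φ hφ x hx
  have hMpos : ∀ y ∈ Ioo (0 : ℝ) 1, 0 < Mt ζ m ℓ y := fun y hy =>
    lt_of_lt_of_le hc1 (Mt_low hζ hm hy)
  have hφ' : ∀ y ∈ Ioo (0 : ℝ) 1, φ y = y * (1 / Mt ζ m ℓ y) := by
    intro y hy
    have h1 := hφ y hy
    have h2 := hMpos y hy
    have h3 := hy.1
    field_simp at h1 ⊢
    linarith only [h1]
  have hB : ∀ z, |m z| ≤ B' ∧ |deriv m z| ≤ B' ∧ |deriv (deriv m) z| ≤ B' := fun z =>
    ⟨(hm.b0 z).trans (le_max_left _ _), (hm.b1 z).trans (le_max_left _ _),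
      (hm.b2 z).trans (le_max_left _ _)⟩
  rcases le_or_gt x (3 / 4) with hx34 | hx34
  · rw [scal_of_M hφ' (fun y hy => (hMpos y hy).ne') (fun y hy => hasDerivAt_Mt hζ hm hℓ hy)
      (fun y hy => hasDerivAt_Mt1 hζ hm hℓ hy) hx]
    have hM := Mt_low (ℓ := ℓ) hζ hm hx
    have hMp := hMpos x hx
    obtain ⟨k1, k2⟩ := hKb x ⟨hx.1.le, hx.2.le⟩
    obtain ⟨m0, m1, m2⟩ := hB (log (x / ℓ))
    have hx0 := hx.1
    have hx1 : x ≤ 1 := hx.2.le
    have hchi0 := hζ.nonneg x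
    have hchi1 := hζ.le_one x
    have hi : 0 < 1 - x := by linarith only [hx34]
    have i1 : 1 / (1 - x) ≤ 4 := by
      rw [div_le_iff₀ hi]; linarith only [hx34]
    have i1' : 0 ≤ 1 / (1 - x) := by (clear * - hi; positivity)
    have i2 : 1 / (1 - x) ^ 2 ≤ 16 := by
      have : 1 / (1 - x) ^ 2 = (1 / (1 - x)) ^ 2 := by (clear * - hi; field_simp)
      rw [this]; nlinarith only [i1, i1']
    have i2' : 0 ≤ 1 / (1 - x) ^ 2 := by (clear * - hi; positivity)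
    have i3 : 2 / (1 - x) ^ 3 ≤ 128 := by
      have : 2 / (1 - x) ^ 3 = 2 * ((1 / (1 - x)) * (1 / (1 - x) ^ 2)) := by (clear * - hi; field_simp)
      rw [this]; nlinarith only [i2, i1, i2']
    have i3' : 0 ≤ 2 / (1 - x) ^ 3 := by (clear * - hi; positivity)
    -- |x M'| ≤ P
    have hM1 : |x * Mt1 ζ m ℓ x| ≤ P := by
      have e : x * Mt1 ζ m ℓ x = x * (deriv ζ x * m (log (x / ℓ)))
          + ζ x * deriv m (log (x / ℓ))
          + (-(x * (deriv ζ x * (1 / (1 - x)))) + x * ((1 - ζ x) * (1 / (1 - x) ^ 2))) := by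
        unfold Mt1
        (clear * - hx0 hi; field_simp)
      rw [e]
      have t1 : |x * (deriv ζ x * m (log (x / ℓ)))| ≤ K * B' := by
        rw [abs_mul, abs_mul, abs_of_pos hx0]
        calc x * (|deriv ζ x| * |m (log (x / ℓ))|) ≤ 1 * (K * B') := by
              apply mul_le_mul hx1 (mul_le_mul k1 m0 (abs_nonneg _) hK) (by (clear * -; positivity)) zero_le_one
          _ = K * B' := one_mul _
      have t2 : |ζ x * deriv m (log (x / ℓ))| ≤ B' := by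
        rw [abs_mul, abs_of_nonneg hchi0]
        calc ζ x * |deriv m (log (x / ℓ))| ≤ 1 * B' :=
              mul_le_mul hchi1 m1 (abs_nonneg _) zero_le_one
          _ = B' := one_mul _
      have t3 : |-(x * (deriv ζ x * (1 / (1 - x))))| ≤ 4 * K := by
        rw [abs_neg, abs_mul, abs_mul, abs_of_pos hx0, abs_of_nonneg i1']
        calc x * (|deriv ζ x| * (1 / (1 - x))) ≤ 1 * (K * 4) := by
              apply mul_le_mul hx1 (mul_le_mul k1 i1 i1' hK) (by (clear * - hi; positivity)) zero_le_one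
          _ = 4 * K := by ring
      have t4 : |x * ((1 - ζ x) * (1 / (1 - x) ^ 2))| ≤ 16 := by
        have hc' : 0 ≤ 1 - ζ x := by linarith only [hchi1]
        rw [abs_of_nonneg (by (clear * - hx0 hchi1 hi; positivity))]
        calc x * ((1 - ζ x) * (1 / (1 - x) ^ 2)) ≤ 1 * (1 * 16) := by
              apply mul_le_mul hx1 (mul_le_mul (by linarith only [hchi0]) i2 i2' zero_le_one) (by (clear * - hchi1 hi; positivity))
                zero_le_one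
          _ = 16 := by ring
      refine (abs_add_le _ _).trans ?_
      have u1 := abs_add_le (x * (deriv ζ x * m (log (x / ℓ))))
        (ζ x * deriv m (log (x / ℓ)))
      have u2 := abs_add_le (-(x * (deriv ζ x * (1 / (1 - x)))))
        (x * ((1 - ζ x) * (1 / (1 - x) ^ 2)))
      rw [hP]; linarith only [t1, t2, t3, t4, u1, u2]
    have hM2 : |x ^ 2 * Mt2 ζ m ℓ x| ≤ Q := by
      have e : x ^ 2 * Mt2 ζ m ℓ x = x ^ 2 * (deriv (deriv ζ) x * m (log (x / ℓ)))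
          + x * (2 * (deriv ζ x * deriv m (log (x / ℓ))))
          + ζ x * (deriv (deriv m) (log (x / ℓ)) - deriv m (log (x / ℓ)))
          + (-(x ^ 2 * (deriv (deriv ζ) x * (1 / (1 - x))))
            + (-(x ^ 2 * (2 * (deriv ζ x * (1 / (1 - x) ^ 2))))
            + x ^ 2 * ((1 - ζ x) * (2 / (1 - x) ^ 3)))) := by
        unfold Mt2
        field_simp
        ring
      rw [e]
      have hxx : x ^ 2 ≤ 1 := by nlinarith only [hx0, hx34]
      have hxx0 : 0 ≤ x ^ 2 := by (clear * - hx0; positivity)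
      have t1 : |x ^ 2 * (deriv (deriv ζ) x * m (log (x / ℓ)))| ≤ K * B' := by
        rw [abs_mul, abs_mul, abs_of_nonneg hxx0]
        calc x ^ 2 * (|deriv (deriv ζ) x| * |m (log (x / ℓ))|) ≤ 1 * (K * B') := by
              apply mul_le_mul hxx (mul_le_mul k2 m0 (abs_nonneg _) hK) (by (clear * -; positivity)) zero_le_one
          _ = K * B' := one_mul _
      have t2 : |x * (2 * (deriv ζ x * deriv m (log (x / ℓ))))| ≤ 2 * K * B' := by
        rw [abs_mul, abs_mul, abs_mul, abs_of_pos hx0, abs_of_pos (two_pos : (0 : ℝ) < 2)]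
        calc x * (2 * (|deriv ζ x| * |deriv m (log (x / ℓ))|)) ≤ 1 * (2 * (K * B')) := by
              apply mul_le_mul hx1 _ (by (clear * -; positivity)) zero_le_one
              exact mul_le_mul_of_nonneg_left (mul_le_mul k1 m1 (abs_nonneg _) hK) two_pos.le
          _ = 2 * K * B' := by ring
      have t3 : |ζ x * (deriv (deriv m) (log (x / ℓ)) - deriv m (log (x / ℓ)))| ≤ 2 * B' := by
        rw [abs_mul, abs_of_nonneg hchi0]
        calc ζ x * |deriv (deriv m) (log (x / ℓ)) - deriv m (log (x / ℓ))|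
            ≤ 1 * (B' + B') := by
              apply mul_le_mul hchi1 _ (abs_nonneg _) zero_le_one
              exact (abs_sub _ _).trans (add_le_add m2 m1)
          _ = 2 * B' := by ring
      have t4 : |-(x ^ 2 * (deriv (deriv ζ) x * (1 / (1 - x))))| ≤ 4 * K := by
        rw [abs_neg, abs_mul, abs_mul, abs_of_nonneg hxx0, abs_of_nonneg i1']
        calc x ^ 2 * (|deriv (deriv ζ) x| * (1 / (1 - x))) ≤ 1 * (K * 4) := by
              apply mul_le_mul hxx (mul_le_mul k2 i1 i1' hK) (by (clear * - hi; positivity)) zero_le_one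
          _ = 4 * K := by ring
      have t5 : |-(x ^ 2 * (2 * (deriv ζ x * (1 / (1 - x) ^ 2))))| ≤ 32 * K := by
        rw [abs_neg, abs_mul, abs_mul, abs_mul, abs_of_nonneg hxx0,
          abs_of_pos (two_pos : (0 : ℝ) < 2), abs_of_nonneg i2']
        calc x ^ 2 * (2 * (|deriv ζ x| * (1 / (1 - x) ^ 2))) ≤ 1 * (2 * (K * 16)) := by
              apply mul_le_mul hxx _ (by (clear * - hi; positivity)) zero_le_one
              exact mul_le_mul_of_nonneg_left (mul_le_mul k1 i2 i2' hK) two_pos.le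
          _ = 32 * K := by ring
      have t6 : |x ^ 2 * ((1 - ζ x) * (2 / (1 - x) ^ 3))| ≤ 128 := by
        have hc' : 0 ≤ 1 - ζ x := by linarith only [hchi1]
        rw [abs_of_nonneg (by (clear * - hx0 hchi1 hi; positivity))]
        calc x ^ 2 * ((1 - ζ x) * (2 / (1 - x) ^ 3)) ≤ 1 * (1 * 128) := by
              apply mul_le_mul hxx (mul_le_mul (by linarith only [hchi0]) i3 i3' zero_le_one) (by (clear * - hchi1 hi; positivity))
                zero_le_one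
          _ = 128 := by ring
      set a1 := x ^ 2 * (deriv (deriv ζ) x * m (log (x / ℓ)))
      set a2 := x * (2 * (deriv ζ x * deriv m (log (x / ℓ))))
      set a3 := ζ x * (deriv (deriv m) (log (x / ℓ)) - deriv m (log (x / ℓ)))
      set a4 := -(x ^ 2 * (deriv (deriv ζ) x * (1 / (1 - x))))
      set a5 := -(x ^ 2 * (2 * (deriv ζ x * (1 / (1 - x) ^ 2))))
      set a6 := x ^ 2 * ((1 - ζ x) * (2 / (1 - x) ^ 3))
      have u1 := abs_add_le (a1 + a2 + a3) (a4 + (a5 + a6))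
      have u2 := abs_add_le (a1 + a2) a3
      have u3 := abs_add_le a1 a2
      have u4 := abs_add_le a4 (a5 + a6)
      have u5 := abs_add_le a5 a6
      rw [hQ]; linarith only [t1, t2, t3, t4, t5, t6, u1, u2, u3, u4, u5]
    -- final
    have j1 : 1 / Mt ζ m ℓ x ≤ 1 / c₁ := one_div_le_one_div_of_le hc1 hM
    have j1' : 0 ≤ 1 / Mt ζ m ℓ x := by (clear * - hMp; positivity)
    have j2 : 1 / Mt ζ m ℓ x ^ 2 ≤ 1 / c₁ ^ 2 :=
      one_div_le_one_div_of_le (by positivity) (pow_le_pow_left₀ hc1.le hM 2)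
    have j3 : 1 / Mt ζ m ℓ x ^ 3 ≤ 1 / c₁ ^ 3 :=
      one_div_le_one_div_of_le (by positivity) (pow_le_pow_left₀ hc1.le hM 3)
    have s1 : |16 * (x * (-Mt1 ζ m ℓ x / Mt ζ m ℓ x ^ 2))| ≤ 16 * (P / c₁ ^ 2) := by
      have e : 16 * (x * (-Mt1 ζ m ℓ x / Mt ζ m ℓ x ^ 2))
          = -(16 * ((x * Mt1 ζ m ℓ x) * (1 / Mt ζ m ℓ x ^ 2))) := by ring
      rw [e, abs_neg, abs_mul, abs_mul, abs_of_pos (by norm_num : (0 : ℝ) < 16),
        abs_of_nonneg (by positivity : 0 ≤ 1 / Mt ζ m ℓ x ^ 2)]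
      have := mul_le_mul hM1 j2 (by positivity) hP0
      have e2 : P * (1 / c₁ ^ 2) = P / c₁ ^ 2 := by ring
      rw [e2] at this
      linarith only [this]
    have s2 : |x ^ 2 * (2 * Mt1 ζ m ℓ x ^ 2 / Mt ζ m ℓ x ^ 3 - Mt2 ζ m ℓ x / Mt ζ m ℓ x ^ 2)|
        ≤ 2 * P ^ 2 / c₁ ^ 3 + Q / c₁ ^ 2 := by
      have e : x ^ 2 * (2 * Mt1 ζ m ℓ x ^ 2 / Mt ζ m ℓ x ^ 3 - Mt2 ζ m ℓ x / Mt ζ m ℓ x ^ 2)
          = 2 * (x * Mt1 ζ m ℓ x) ^ 2 * (1 / Mt ζ m ℓ x ^ 3)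
            - (x ^ 2 * Mt2 ζ m ℓ x) * (1 / Mt ζ m ℓ x ^ 2) := by ring
      rw [e]
      refine (abs_sub _ _).trans (add_le_add ?_ ?_)
      · rw [abs_of_nonneg (by (clear * - hMp; positivity))]
        have h1 : (x * Mt1 ζ m ℓ x) ^ 2 ≤ P ^ 2 := sq_le_sq' (by
          have := (abs_le.1 hM1).1; linarith only [this]) (abs_le.1 hM1).2
        have h2 := mul_le_mul h1 j3 (by positivity) (by (clear * - hK; positivity) : 0 ≤ P ^ 2)
        have e2 : 2 * P ^ 2 / c₁ ^ 3 = 2 * (P ^ 2 * (1 / c₁ ^ 3)) := by ring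
        rw [e2]
        linarith only [h2]
      · rw [abs_mul, abs_of_nonneg (by (clear * - hMp; positivity) : 0 ≤ 1 / Mt ζ m ℓ x ^ 2)]
        have := mul_le_mul hM2 j2 (by (clear * - hMp; positivity)) hQ0
        have e2 : Q / c₁ ^ 2 = Q * (1 / c₁ ^ 2) := by ring
        rw [e2]
        exact this
    have s0 : |56 * (1 / Mt ζ m ℓ x)| ≤ 56 / c₁ := by
      rw [abs_of_nonneg (by positivity)]
      have : 56 / c₁ = 56 * (1 / c₁) := by ring
      rw [this]; linarith only [j1]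
    set b0 := 56 * (1 / Mt ζ m ℓ x)
    set b1 := 16 * (x * (-Mt1 ζ m ℓ x / Mt ζ m ℓ x ^ 2))
    set b2 := x ^ 2 * (2 * Mt1 ζ m ℓ x ^ 2 / Mt ζ m ℓ x ^ 3 - Mt2 ζ m ℓ x / Mt ζ m ℓ x ^ 2)
    have u1 := abs_sub (56 : ℝ) (b0 + b1 + b2)
    have u2 := abs_add_le (b0 + b1) b2
    have u3 := abs_add_le b0 b1
    have h56 : |(56 : ℝ)| = 56 := by norm_num
    linarith only [s0, s1, s2, u1, u2, u3, h56]
  · -- Fubini–Study part
    have hx12 : (1 : ℝ) / 2 < x := by linarith only [hx34]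
    have e1 : ∀ y ∈ Ioo (1 / 2 : ℝ) 1, y ^ (8 - 1) * φ y = y ^ 8 * (1 - y) := by
      intro y hy
      have hy' : y ∈ Ioo (0 : ℝ) 1 := ⟨by linarith only [hy.1], hy.2⟩
      rw [hφ' y hy', Mt_eq_half hζ hy.1.le, one_div_one_div]
      ring
    have hd : ∀ y : ℝ, HasDerivAt (fun y : ℝ => y ^ 8 * (1 - y)) (8 * y ^ 7 * (1 - y) - y ^ 8) y := by
      intro y
      have := (hasDerivAt_pow 8 y).mul ((hasDerivAt_id y).const_sub 1)
      refine this.congr_deriv ?_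
      simp only [id]
      push_cast
      ring
    have hd2 : ∀ y : ℝ, HasDerivAt (fun y : ℝ => 8 * y ^ 7 * (1 - y) - y ^ 8)
        (56 * y ^ 6 * (1 - y) - 8 * y ^ 7 - 8 * y ^ 7) y := by
      intro y
      have a1 := ((hasDerivAt_pow 7 y).const_mul 8).mul ((hasDerivAt_id y).const_sub 1)
      have := a1.sub (hasDerivAt_pow 8 y)
      refine this.congr_deriv ?_
      simp only [id]
      push_cast
      ring
    have f1 : ∀ y ∈ Ioo (1 / 2 : ℝ) 1, deriv (fun y => y ^ (8 - 1) * φ y) y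
        = 8 * y ^ 7 * (1 - y) - y ^ 8 := by
      intro y hy
      have : (fun y => y ^ (8 - 1) * φ y) =ᶠ[𝓝 y] fun y => y ^ 8 * (1 - y) := by
        filter_upwards [isOpen_Ioo.mem_nhds hy] with z hz
        exact e1 z hz
      rw [this.deriv_eq]
      exact (hd y).deriv
    have hxI : x ∈ Ioo (1 / 2 : ℝ) 1 := ⟨hx12, hx.2⟩
    have f2 : deriv (deriv (fun y => y ^ (8 - 1) * φ y)) x
        = 56 * x ^ 6 * (1 - x) - 8 * x ^ 7 - 8 * x ^ 7 := by
      have : deriv (fun y => y ^ (8 - 1) * φ y) =ᶠ[𝓝 x]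
          fun y => 8 * y ^ 7 * (1 - y) - y ^ 8 := by
        filter_upwards [isOpen_Ioo.mem_nhds hxI] with z hz
        exact f1 z hz
      rw [this.deriv_eq]
      exact (hd2 x).deriv
    have hS : x * scal 8 φ x = 72 * x := by
      unfold scal
      rw [f2]
      have hx0 : x ≠ 0 := hx.1.ne'
      norm_num
      field_simp
      ring
    rw [hS, abs_of_nonneg (by linarith only [hx34])]
    have : 0 ≤ 56 + (56 / c₁ + 16 * (P / c₁ ^ 2) + (2 * P ^ 2 / c₁ ^ 3 + Q / c₁ ^ 2)) := by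
      (clear * - hc hK; positivity)
    linarith only [this, hx.2]


/-- The momentum profile of a solution at time `0`. -/
theorem phi_init {ζ : ℝ → ℝ} {T : ℝ} (hT : 0 < T) {U₀ : ℝ → ℝ} {U φ : ℝ → ℝ → ℝ}
    (H : IsFlowU 8 T U₀ U φ)
    (hU₀ : ∀ x, 0 < x → x < 1 → deriv (deriv U₀) x
        = ζ x * ((m (log (x / ℓ)) - 1) / x - 1 / (1 - x))) {x : ℝ} (hx : x ∈ Ioo (0 : ℝ) 1) :
    φ 0 x * (Mt ζ m ℓ x / x) = 1 := by
  have h0 : (0 : ℝ) ∈ Icc 0 T := ⟨le_rfl, hT.le⟩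
  have h1 := H.rel 0 h0 x hx
  have hopen : IsOpen (Ioo (0 : ℝ) 1) := isOpen_Ioo
  have e1 : ∀ y ∈ Ioo (0 : ℝ) 1, deriv (U 0) y = deriv U₀ y := by
    intro y hy
    apply Filter.EventuallyEq.deriv_eq
    filter_upwards [hopen.mem_nhds hy] with z hz
    exact H.init z ⟨hz.1.le, hz.2.le⟩
  have e2 : deriv (deriv (U 0)) x = deriv (deriv U₀) x := by
    apply Filter.EventuallyEq.deriv_eq
    filter_upwards [hopen.mem_nhds hx] with z hz
    exact e1 z hz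
  rw [e2, hU₀ x hx.1 hx.2] at h1
  have hx0 : x ≠ 0 := hx.1.ne'
  have hx1 : 1 - x ≠ 0 := by linarith only [hx.2]
  rw [← h1]
  congr 1
  unfold Mt
  field_simp
  ring

/-- `h(0,x) = φ(0,x)/x = 1/m(log (x/ℓ))` for `x ≤ 1/4`. -/
theorem h_init {ζ : ℝ → ℝ} {xb : ℝ} (hζ : CutB ζ xb) {T : ℝ} (hT : 0 < T) {U₀ : ℝ → ℝ} {U φ : ℝ → ℝ → ℝ}
    (H : IsFlowU 8 T U₀ U φ)
    (hU₀ : ∀ x, 0 < x → x < 1 → deriv (deriv U₀) x
        = ζ x * ((m (log (x / ℓ)) - 1) / x - 1 / (1 - x))) {x : ℝ} (hx : 0 < x)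
    (hx4 : x ≤ xb) : φ 0 x / x = 1 / m (log (x / ℓ)) := by
  have h1 := phi_init hT H hU₀ (x := x) ⟨hx, by have := hζ.xb_le; linarith⟩
  have h2 : Mt ζ m ℓ x = m (log (x / ℓ)) := by
    unfold Mt
    rw [hζ.one _ hx4]
    ring
  rw [h2] at h1
  have h3 : m (log (x / ℓ)) ≠ 0 := by
    intro h
    rw [h] at h1
    simp at h1
  field_simp at h1 ⊢
  linarith only [h1]

/-- **Lipschitz dependence** of `U₀` on `m`. -/
theorem U0_lipschitz {ζ : ℝ → ℝ} {xb : ℝ} (hζ : CutB ζ xb) {m m' : ℝ → ℝ} {ℓ Za D : ℝ} (hℓ : 0 < ℓ)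
    (hD : ∀ z, |m z - m' z| ≤ D) (hZ : ∀ z ≤ Za, m z = m' z) {U₀ V₀ : ℝ → ℝ}
    (hU : ContDiff ℝ ∞ U₀) (hV : ContDiff ℝ ∞ V₀) (hU0 : U₀ 0 = 0) (hV0 : V₀ 0 = 0)
    (hU1 : deriv U₀ 0 = 0) (hV1 : deriv V₀ 0 = 0)
    (hU₀ : ∀ x, 0 < x → x < 1 → deriv (deriv U₀) x
        = ζ x * ((m (log (x / ℓ)) - 1) / x - 1 / (1 - x)))
    (hV₀ : ∀ x, 0 < x → x < 1 → deriv (deriv V₀) x
        = ζ x * ((m' (log (x / ℓ)) - 1) / x - 1 / (1 - x))) :
    ∀ x ∈ Icc (0 : ℝ) 1, |U₀ x - V₀ x| ≤ D * exp (-Za) / ℓ := by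
  have hD0 : 0 ≤ D := (abs_nonneg _).trans (hD 0)
  have hU' : ContDiff ℝ ∞ (deriv U₀) := (contDiff_infty_iff_deriv.1 hU).2
  have hU'' : ContDiff ℝ ∞ (deriv (deriv U₀)) := (contDiff_infty_iff_deriv.1 hU').2
  have hV' : ContDiff ℝ ∞ (deriv V₀) := (contDiff_infty_iff_deriv.1 hV).2
  have hV'' : ContDiff ℝ ∞ (deriv (deriv V₀)) := (contDiff_infty_iff_deriv.1 hV').2
  set K := D * exp (-Za) / ℓ with hK
  have h2 : ∀ x ∈ Ioo (0 : ℝ) 1, |deriv (deriv U₀) x - deriv (deriv V₀) x| ≤ K := by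
    intro x hx
    have hx0 := hx.1
    rw [hU₀ x hx.1 hx.2, hV₀ x hx.1 hx.2]
    have e : ζ x * ((m (log (x / ℓ)) - 1) / x - 1 / (1 - x))
        - ζ x * ((m' (log (x / ℓ)) - 1) / x - 1 / (1 - x))
        = ζ x * ((m (log (x / ℓ)) - m' (log (x / ℓ))) / x) := by ring
    rw [e, abs_mul, abs_of_nonneg (hζ.nonneg x), abs_div, abs_of_pos hx0]
    have hy : 0 < x / ℓ := by (clear * - hx0 hℓ; positivity)
    rcases le_or_gt (log (x / ℓ)) Za with h | h
    · rw [hZ _ h, sub_self, abs_zero, zero_div, mul_zero]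
      (clear * - hD0 hℓ; positivity)
    · have h3 : ℓ * exp Za < x := by
        rw [lt_log_iff_exp_lt hy, lt_div_iff₀ hℓ] at h
        linarith only [h]
      calc ζ x * (|m (log (x / ℓ)) - m' (log (x / ℓ))| / x) ≤ 1 * (D / (ℓ * exp Za)) := by
            apply mul_le_mul (hζ.le_one x) _ (by (clear * - hx0; positivity)) zero_le_one
            exact div_le_div₀ hD0 (hD _) (by positivity) h3.le
        _ = K := by
            rw [hK, exp_neg]
            (clear * - hℓ; field_simp)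
  have h2' : ∀ x ∈ Icc (0 : ℝ) 1, |deriv (deriv U₀) x - deriv (deriv V₀) x| ≤ K := by
    intro x hx
    have hcl : x ∈ closure (Ioo (0 : ℝ) 1) := by
      rw [closure_Ioo zero_ne_one]
      exact hx
    have hcont : Continuous fun x => |deriv (deriv U₀) x - deriv (deriv V₀) x| :=
      (hU''.continuous.sub hV''.continuous).abs
    have hclosed : IsClosed {x | |deriv (deriv U₀) x - deriv (deriv V₀) x| ≤ K} :=
      isClosed_le hcont continuous_const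
    exact closure_minimal (fun y hy => h2 y hy) hclosed hcl
  have hd : ∀ {f : ℝ → ℝ}, ContDiff ℝ ∞ f → ∀ x, HasDerivAt f (deriv f x) x := fun hf x =>
    ((hf.differentiable (by simp)) x).hasDerivAt
  have h1 := abs_sub_le_of_deriv (f := deriv U₀) (g := deriv V₀) (a := 0) (b := 1) (τ := K)
    (fun x _ => hd hU' x) (fun x _ => hd hV' x) (by rw [hU1, hV1]) h2'
  have h0 := abs_sub_le_of_deriv (f := U₀) (g := V₀) (a := 0) (b := 1) (τ := K)
    (fun x _ => hd hU x) (fun x _ => hd hV x) (by rw [hU0, hV0])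
    (fun x hx => by simpa only [sub_zero, mul_one] using h1 x hx)
  intro x hx
  simpa only [sub_zero, mul_one] using h0 x hx

/-- `L²` version of `U0_lipschitz`. -/
theorem U0_lipschitz_L2 {ζ : ℝ → ℝ} {xb : ℝ} (hζ : CutB ζ xb) {m m' : ℝ → ℝ} {ℓ Za D : ℝ} (hℓ : 0 < ℓ)
    (hD : ∀ z, |m z - m' z| ≤ D) (hZ : ∀ z ≤ Za, m z = m' z) {U₀ V₀ : ℝ → ℝ}
    (hU : ContDiff ℝ ∞ U₀) (hV : ContDiff ℝ ∞ V₀) (hU0 : U₀ 0 = 0) (hV0 : V₀ 0 = 0)
    (hU1 : deriv U₀ 0 = 0) (hV1 : deriv V₀ 0 = 0)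
    (hU₀ : ∀ x, 0 < x → x < 1 → deriv (deriv U₀) x
        = ζ x * ((m (log (x / ℓ)) - 1) / x - 1 / (1 - x)))
    (hV₀ : ∀ x, 0 < x → x < 1 → deriv (deriv V₀) x
        = ζ x * ((m' (log (x / ℓ)) - 1) / x - 1 / (1 - x))) (k : ℕ) :
    ∫ x in (0 : ℝ)..1, x ^ k * (U₀ x - V₀ x) ^ 2 ≤ (D * exp (-Za) / ℓ) ^ 2 := by
  have h := U0_lipschitz hζ hℓ hD hZ hU hV hU0 hV0 hU1 hV1 hU₀ hV₀
  have h1 : ‖∫ x in (0 : ℝ)..1, x ^ k * (U₀ x - V₀ x) ^ 2‖
      ≤ (D * exp (-Za) / ℓ) ^ 2 * |(1 : ℝ) - 0| := by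
    apply intervalIntegral.norm_integral_le_of_norm_le_const
    intro x hx
    rw [uIoc_of_le zero_le_one] at hx
    have hx0 := hx.1
    have h2 : (U₀ x - V₀ x) ^ 2 ≤ (D * exp (-Za) / ℓ) ^ 2 := by
      rw [← sq_abs (U₀ x - V₀ x)]
      exact pow_le_pow_left₀ (abs_nonneg _) (h x ⟨hx0.le, hx.2⟩) 2
    rw [Real.norm_eq_abs, abs_of_nonneg (by (clear * - hx0; positivity))]
    calc x ^ k * (U₀ x - V₀ x) ^ 2 ≤ 1 * (D * exp (-Za) / ℓ) ^ 2 :=
          mul_le_mul (pow_le_one₀ hx0.le hx.2) h2 (sq_nonneg _) zero_le_one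
      _ = _ := one_mul _
  have h2 := le_of_abs_le h1
  simpa only [ge_iff_le, sub_zero, abs_one, mul_one] using h2

end

end P264.L
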