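import Vale.Agent.P264.H849.GData

/-!
# P264 / H849 / GBase : the bounds of an arbitrary background
-/

set_option linter.all false

open Set Filter Topology Real MeasureTheory
open scoped ContDiff

namespace P264.L

open P264.B

/-- `β = x/φ₁ = 1/(1-x) + x U₁''`. -/
noncomputable def bet (U₁ : ℝ → ℝ) (x : ℝ) : ℝ := 1 / (1 - x) + x * deriv (deriv U₁) x

noncomputable def bet1 (U₁ : ℝ → ℝ) (x : ℝ) : ℝ :=
  1 / (1 - x) ^ 2 + (deriv (deriv U₁) x + x * deriv (deriv (deriv U₁)) x)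

noncomputable def bet2 (U₁ : ℝ → ℝ) (x : ℝ) : ℝ :=
  2 / (1 - x) ^ 3 + (deriv (deriv (deriv U₁)) x
    + (deriv (deriv (deriv U₁)) x + x * deriv (deriv (deriv (deriv U₁))) x))

theorem exists_base {U₁ : ℝ → ℝ} (hU : IsInit U₁) :
    ∃ c₂ N S : ℝ, Base (bet U₁) (bet1 U₁) (bet2 U₁) c₂ N S := by
  have s1 : ContDiff ℝ ∞ (deriv U₁) := (contDiff_infty_iff_deriv.1 hU.smooth).2
  have s2 : ContDiff ℝ ∞ (deriv (deriv U₁)) := (contDiff_infty_iff_deriv.1 s1).2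
  have s3 : ContDiff ℝ ∞ (deriv (deriv (deriv U₁))) := (contDiff_infty_iff_deriv.1 s2).2
  have s4 : ContDiff ℝ ∞ (deriv (deriv (deriv (deriv U₁)))) := (contDiff_infty_iff_deriv.1 s3).2
  set W : ℝ → ℝ := deriv (deriv U₁) with hW
  set W1 : ℝ → ℝ := deriv W with hW1
  set W2 : ℝ → ℝ := deriv W1 with hW2
  have dW : ∀ x, HasDerivAt W (W1 x) x := fun x => ((s2.differentiable (by simp)) x).hasDerivAt
  have dW1 : ∀ x, HasDerivAt W1 (W2 x) x := fun x => ((s3.differentiable (by simp)) x).hasDerivAt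
  -- `w = 1 + x (1-x) W`
  set w : ℝ → ℝ := fun x => 1 + x * (1 - x) * W x with hw
  have hwc : ContDiff ℝ ∞ w :=
    contDiff_const.add ((contDiff_id.mul (contDiff_const.sub contDiff_id)).mul s2)
  have hwpos : ∀ x ∈ Icc (0 : ℝ) 1, 0 < w x := hU.pos
  obtain ⟨x₀, hx₀, hmin⟩ := (isCompact_Icc (a := (0 : ℝ)) (b := 1)).exists_isMinOn
    ⟨0, le_rfl, zero_le_one⟩ hwc.continuous.continuousOn
  have hc2 : 0 < w x₀ := hwpos x₀ hx₀
  have hbw : ∀ x ∈ Ioo (0 : ℝ) 1, bet U₁ x = w x / (1 - x) := by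
    intro x hx
    have h1 : 1 - x ≠ 0 := by linarith [hx.2]
    simp only [bet, hw]
    rw [← hW]
    field_simp
  have hbpos : ∀ x ∈ Ioo (0 : ℝ) 1, 0 < bet U₁ x := by
    intro x hx
    rw [hbw x hx]
    exact div_pos (hwpos x ⟨hx.1.le, hx.2.le⟩) (by linarith [hx.2])
  -- bounds
  obtain ⟨N0, hN0⟩ := (isCompact_Icc (a := (0 : ℝ)) (b := 1)).exists_bound_of_continuousOn
    s2.continuous.continuousOn
  obtain ⟨N1, hN1⟩ := (isCompact_Icc (a := (0 : ℝ)) (b := 1)).exists_bound_of_continuousOn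
    s3.continuous.continuousOn
  obtain ⟨N2, hN2⟩ := (isCompact_Icc (a := (0 : ℝ)) (b := 1)).exists_bound_of_continuousOn
    s4.continuous.continuousOn
  have m0 : (0 : ℝ) ∈ Icc (0 : ℝ) 1 := ⟨le_rfl, zero_le_one⟩
  have N0n : 0 ≤ N0 := (norm_nonneg _).trans (hN0 0 m0)
  have N1n : 0 ≤ N1 := (norm_nonneg _).trans (hN1 0 m0)
  have N2n : 0 ≤ N2 := (norm_nonneg _).trans (hN2 0 m0)
  -- scalar curvature
  set F : ℝ → ℝ := fun y => y ^ 8 * (1 - y) / w y with hF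
  have hopen : IsOpen {y | 0 < w y} := isOpen_lt continuous_const hwc.continuous
  have hFc : ContDiffOn ℝ ∞ F {y | 0 < w y} := by
    intro y hy
    have hy' : w y ≠ 0 := ne_of_gt hy
    refine ContDiffAt.contDiffWithinAt ?_
    exact (((contDiff_id.pow 8).mul (contDiff_const.sub contDiff_id)).contDiffAt).div
      hwc.contDiffAt hy'
  have hF1 : ContDiffOn ℝ ∞ (deriv F) {y | 0 < w y} :=
    ((contDiffOn_infty_iff_deriv_of_isOpen hopen).1 hFc).2
  have hF2 : ContDiffOn ℝ ∞ (deriv (deriv F)) {y | 0 < w y} :=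
    ((contDiffOn_infty_iff_deriv_of_isOpen hopen).1 hF1).2
  obtain ⟨M, hM⟩ := (isCompact_Icc (a := (0 : ℝ)) (b := 1)).exists_bound_of_continuousOn
    (hF2.continuousOn.mono fun x hx => hwpos x hx)
  have hM0 : 0 ≤ M := (norm_nonneg _).trans (hM 0 m0)
  refine ⟨w x₀, 128 + N0 + 2 * N1 + N2, 56 + 64 * M, ?_⟩
  have i1 : ∀ x ∈ Ioo (0 : ℝ) 1, x ≤ 3 / 4 → 0 < 1 - x ∧ 1 / (1 - x) ≤ 4 ∧ 0 ≤ 1 / (1 - x) ∧
      1 / (1 - x) ^ 2 ≤ 16 ∧ 0 ≤ 1 / (1 - x) ^ 2 ∧ 2 / (1 - x) ^ 3 ≤ 128 ∧ 0 ≤ 2 / (1 - x) ^ 3 := by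
    intro x hx h34
    have hi : 0 < 1 - x := by linarith only [h34]
    have i1 : 1 / (1 - x) ≤ 4 := by
      rw [div_le_iff₀ hi]; linarith only [h34]
    have i1' : 0 ≤ 1 / (1 - x) := by (clear * - hi; positivity)
    have i2 : 1 / (1 - x) ^ 2 ≤ 16 := by
      have : 1 / (1 - x) ^ 2 = (1 / (1 - x)) ^ 2 := by (clear * - hi; field_simp)
      rw [this]; nlinarith only [i1, i1']
    have i2' : 0 ≤ 1 / (1 - x) ^ 2 := by (clear * - hi; positivity)
    have i3 : 2 / (1 - x) ^ 3 ≤ 128 := by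
      have : 2 / (1 - x) ^ 3 = 2 * ((1 / (1 - x)) * (1 / (1 - x) ^ 2)) := by (clear * - hi; field_simp)
      rw [this]; nlinarith only [i2, i1, i2']
    have i3' : 0 ≤ 2 / (1 - x) ^ 3 := by (clear * - hi; positivity)
    exact ⟨hi, i1, i1', i2, i2', i3, i3'⟩
  have xm : ∀ {x y C : ℝ}, x ∈ Ioo (0 : ℝ) 1 → |y| ≤ C → |x * y| ≤ C := by
    intro x y C hx hy
    rw [abs_mul, abs_of_pos hx.1]
    calc x * |y| ≤ 1 * |y| := mul_le_mul_of_nonneg_right hx.2.le (abs_nonneg _)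
      _ = |y| := one_mul _
      _ ≤ C := hy
  refine ⟨?_, ?_, hc2, ?_, by positivity, ?_, ?_, ?_, by positivity, ?_⟩
  · intro x hx
    refine ((hasDerivAt_one_sub_inv hx.2).add ((hasDerivAt_id x).mul (dW x))).congr_deriv ?_
    simp only [bet1, id, one_mul]
    rw [← hW]
  · intro x hx
    refine ((hasDerivAt_one_sub_inv2 hx.2).add ((dW x).add
      ((hasDerivAt_id x).mul (dW1 x)))).congr_deriv ?_
    simp only [bet2, id, one_mul]
    rw [← hW]
  · intro x hx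
    rw [hbw x hx, le_div_iff₀ (by linarith [hx.2])]
    have h1 : w x₀ ≤ w x := hmin ⟨hx.1.le, hx.2.le⟩
    have h2 : w x₀ * (1 - x) ≤ w x₀ * 1 := mul_le_mul_of_nonneg_left (by linarith [hx.1]) hc2.le
    linarith
  · intro x hx h34
    obtain ⟨hi, a1, a1', a2, a2', a3, a3'⟩ := i1 x hx h34
    have h1 : |x * W x| ≤ N0 := xm hx (hN0 x ⟨hx.1.le, hx.2.le⟩)
    have h2 := abs_add_le (1 / (1 - x)) (x * W x)
    rw [abs_of_nonneg a1'] at h2
    show |1 / (1 - x) + x * W x| ≤ _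
    linarith
  · intro x hx h34
    obtain ⟨hi, a1, a1', a2, a2', a3, a3'⟩ := i1 x hx h34
    have h0 : |W x| ≤ N0 := hN0 x ⟨hx.1.le, hx.2.le⟩
    have h1 : |x * W1 x| ≤ N1 := xm hx (hN1 x ⟨hx.1.le, hx.2.le⟩)
    have h2 := abs_add_le (1 / (1 - x) ^ 2) (W x + x * W1 x)
    have h3 := abs_add_le (W x) (x * W1 x)
    rw [abs_of_nonneg a2'] at h2
    show |1 / (1 - x) ^ 2 + (W x + x * W1 x)| ≤ _
    linarith
  · intro x hx h34
    obtain ⟨hi, a1, a1', a2, a2', a3, a3'⟩ := i1 x hx h34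
    have h0 : |W1 x| ≤ N1 := hN1 x ⟨hx.1.le, hx.2.le⟩
    have h1 : |x * W2 x| ≤ N2 := xm hx (hN2 x ⟨hx.1.le, hx.2.le⟩)
    have h2 := abs_add_le (2 / (1 - x) ^ 3) (W1 x + (W1 x + x * W2 x))
    have h3 := abs_add_le (W1 x) (W1 x + x * W2 x)
    have h4 := abs_add_le (W1 x) (x * W2 x)
    rw [abs_of_nonneg a3'] at h2
    show |2 / (1 - x) ^ 3 + (W1 x + (W1 x + x * W2 x))| ≤ _
    linarith
  · intro x hx
    have hx' : x ∈ Ioo (0 : ℝ) 1 := ⟨by linarith [hx.1], hx.2⟩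
    have e0 : ∀ y ∈ Ioo (0 : ℝ) 1, y ^ (8 - 1) * (y * (1 / bet U₁ y)) = F y := by
      intro y hy
      have h1 := hwpos y ⟨hy.1.le, hy.2.le⟩
      have h2 : 0 < 1 - y := by linarith [hy.2]
      rw [hbw y hy, one_div_div]
      simp only [hF]
      ring
    have e1 : ∀ y ∈ Ioo (0 : ℝ) 1, deriv (fun y => y ^ (8 - 1) * (y * (1 / bet U₁ y))) y
        = deriv F y := by
      intro y hy
      apply Filter.EventuallyEq.deriv_eq
      filter_upwards [isOpen_Ioo.mem_nhds hy] with z hz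
      exact e0 z hz
    have e2 : deriv (deriv (fun y => y ^ (8 - 1) * (y * (1 / bet U₁ y)))) x = deriv (deriv F) x := by
      apply Filter.EventuallyEq.deriv_eq
      filter_upwards [isOpen_Ioo.mem_nhds hx'] with z hz
      exact e1 z hz
    have h3 : |deriv (deriv F) x| ≤ M := hM x ⟨hx'.1.le, hx'.2.le⟩
    have e3 : x * scal 8 (fun y => y * (1 / bet U₁ y)) x = 56 - deriv (deriv F) x / x ^ 6 := by
      unfold scal
      rw [e2]
      have hx0 : x ≠ 0 := hx'.1.ne'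
      norm_num
      field_simp
    rw [e3]
    have h4 : |deriv (deriv F) x / x ^ 6| ≤ 64 * M := by
      have hx6 : (1 : ℝ) / 64 ≤ x ^ 6 := by
        have : (1 / 2 : ℝ) ^ 6 ≤ x ^ 6 := pow_le_pow_left₀ (by norm_num) (by linarith [hx.1]) 6
        norm_num at this ⊢
        exact this
      have hx60 : 0 < x ^ 6 := by linarith
      rw [abs_div, abs_of_pos hx60, div_le_iff₀ hx60]
      nlinarith [abs_nonneg (deriv (deriv F) x)]
    have h5 := abs_sub (56 : ℝ) (deriv (deriv F) x / x ^ 6)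
    have h56 : |(56 : ℝ)| = 56 := by norm_num
    linarith

end P264.L
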