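import Vale.Agent.P264.H849.Data

/-!
# P264 / H849 / GData : localised initial data on an arbitrary invariant background

`1/φ₀ = ζ m(log (x/ℓ))/x + (1-ζ) (1/x + 1/(1-x) + U₁'')`.
-/

set_option linter.all false

open Set Filter Topology Real MeasureTheory
open scoped ContDiff

namespace P264.L

open P264.B

/-- Smooth initial data `U₀` with `U₀'' = ζ ((m(log (x/ℓ)) - 1)/x - 1/(1-x)) + (1-ζ) U₁''`. -/
theorem exists_U0G {ζ : ℝ → ℝ} {xb : ℝ} (hζ : CutB ζ xb) {U₁ : ℝ → ℝ} (hU₁ : IsInit U₁)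
    {m : ℝ → ℝ} {p : Polynomial ℝ} (hm : ContDiff ℝ ∞ m) (hpos : ∀ z, 0 < m z)
    (hp : p.eval 0 = 1) {Z : ℝ} (hZ : ∀ z ≤ Z, m z = 1 / p.eval (exp z)) {ℓ : ℝ} (hℓ : 0 < ℓ) :
    ∃ U₀ : ℝ → ℝ, IsInit U₀ ∧ U₀ 0 = 0 ∧ deriv U₀ 0 = 0 ∧
      ∀ x, 0 < x → x < 1 → deriv (deriv U₀) x
        = ζ x * ((m (log (x / ℓ)) - 1) / x - 1 / (1 - x)) + (1 - ζ x) * deriv (deriv U₁) x := by
  obtain ⟨U, hU, hU0, hU1, hform⟩ := exists_U0 hζ hm hpos hp hZ hℓ
  have hU₁' : ContDiff ℝ ∞ (deriv U₁) := (contDiff_infty_iff_deriv.1 hU₁.smooth).2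
  have hU₁'' : ContDiff ℝ ∞ (deriv (deriv U₁)) := (contDiff_infty_iff_deriv.1 hU₁').2
  have hKc : ContDiff ℝ ∞ (fun x => (1 - ζ x) * deriv (deriv U₁) x) :=
    (contDiff_const.sub hζ.smooth).mul hU₁''
  obtain ⟨V, hV, hV0, dV⟩ := exists_primitive hKc 0 0
  obtain ⟨Y, hY, hY0, dY⟩ := exists_primitive hV 0 0
  have eY1 : deriv Y = V := funext fun x => (dY x).deriv
  have eY2 : deriv (deriv Y) = fun x => (1 - ζ x) * deriv (deriv U₁) x := by
    rw [eY1]; exact funext fun x => (dV x).deriv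
  have hU' : ContDiff ℝ ∞ (deriv U) := (contDiff_infty_iff_deriv.1 hU.smooth).2
  have dU : ∀ x, HasDerivAt U (deriv U x) x := fun x =>
    ((hU.smooth.differentiable (by simp)) x).hasDerivAt
  have dU1 : ∀ x, HasDerivAt (deriv U) (deriv (deriv U) x) x := fun x =>
    ((hU'.differentiable (by simp)) x).hasDerivAt
  have eS1 : deriv (fun x => U x + Y x) = fun x => deriv U x + V x :=
    funext fun x => ((dU x).add (dY x)).deriv
  have eS2 : deriv (deriv (fun x => U x + Y x)) = fun x => deriv (deriv U) x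
      + (1 - ζ x) * deriv (deriv U₁) x := by
    rw [eS1]; exact funext fun x => ((dU1 x).add (dV x)).deriv
  have hform' : ∀ x, 0 < x → x < 1 → deriv (deriv (fun x => U x + Y x)) x
        = ζ x * ((m (log (x / ℓ)) - 1) / x - 1 / (1 - x)) + (1 - ζ x) * deriv (deriv U₁) x := by
    intro x hx hx'
    rw [eS2]
    simp only
    rw [hform x hx hx']
  refine ⟨fun x => U x + Y x, ⟨hU.smooth.add hY, ?_⟩, ?_, ?_, hform'⟩
  · intro x hx
    rcases hx.1.eq_or_lt with h | h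
    · rw [← h]; simp
    rcases hx.2.eq_or_lt with h' | h'
    · rw [h']; simp only [sub_self, mul_zero, zero_mul, add_zero, zero_lt_one]
    rw [hform' x h h']
    have h1x : 0 < 1 - x := by linarith only [h']
    have key : 1 + x * (1 - x) * (ζ x * ((m (log (x / ℓ)) - 1) / x - 1 / (1 - x))
        + (1 - ζ x) * deriv (deriv U₁) x)
        = (1 - ζ x) * (1 + x * (1 - x) * deriv (deriv U₁) x)
          + ζ x * ((1 - x) * m (log (x / ℓ))) := by
      field_simp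
      ring
    rw [key]
    have hmz := mul_pos h1x (hpos (log (x / ℓ)))
    have hw := hU₁.pos x hx
    have hz0 := hζ.nonneg x
    have hz1 := hζ.le_one x
    rcases hz0.eq_or_lt with hc | hc
    · rw [← hc, sub_zero, one_mul, zero_mul, add_zero]; exact hw
    · have h3 := mul_pos hc hmz
      have h4 : 0 ≤ (1 - ζ x) * (1 + x * (1 - x) * deriv (deriv U₁) x) :=
        mul_nonneg (by linarith) hw.le
      linarith
  · show U 0 + Y 0 = 0
    rw [hU0, hY0, add_zero]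
  · rw [eS1]
    show deriv U 0 + V 0 = 0
    rw [hU1, hV0, add_zero]

/-- The background: `β = x/φ₁` and its derivatives. -/
structure Base (β β1 β2 : ℝ → ℝ) (c₂ N S : ℝ) : Prop where
  d1 : ∀ x ∈ Ioo (0 : ℝ) 1, HasDerivAt β (β1 x) x
  d2 : ∀ x ∈ Ioo (0 : ℝ) 1, HasDerivAt β1 (β2 x) x
  c₂_pos : 0 < c₂
  low : ∀ x ∈ Ioo (0 : ℝ) 1, c₂ ≤ β x
  N_nonneg : 0 ≤ N
  b0 : ∀ x ∈ Ioo (0 : ℝ) 1, x ≤ 3 / 4 → |β x| ≤ N
  b1 : ∀ x ∈ Ioo (0 : ℝ) 1, x ≤ 3 / 4 → |β1 x| ≤ N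
  b2 : ∀ x ∈ Ioo (0 : ℝ) 1, x ≤ 3 / 4 → |β2 x| ≤ N
  S_nonneg : 0 ≤ S
  sc : ∀ x ∈ Ioo (3 / 4 : ℝ) 1, |x * scal 8 (fun y => y * (1 / β y)) x| ≤ S

/-- `M(x) = x/φ₀(x)`. -/
noncomputable def MtG (ζ β m : ℝ → ℝ) (ℓ x : ℝ) : ℝ :=
  ζ x * m (log (x / ℓ)) + (1 - ζ x) * β x

section
variable {c₀ B ℓ : ℝ} {m : ℝ → ℝ} {β β1 β2 : ℝ → ℝ} {c₂ N S : ℝ}

/-- first derivative of `MtG`. -/
noncomputable def Mt1G (ζ β β1 m : ℝ → ℝ) (ℓ x : ℝ) : ℝ :=
  deriv ζ x * m (log (x / ℓ)) + ζ x * (deriv m (log (x / ℓ)) / x)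
    + (-deriv ζ x * β x + (1 - ζ x) * β1 x)

/-- second derivative of `MtG`. -/
noncomputable def Mt2G (ζ β β1 β2 m : ℝ → ℝ) (ℓ x : ℝ) : ℝ :=
  (deriv (deriv ζ) x * m (log (x / ℓ)) + deriv ζ x * (deriv m (log (x / ℓ)) / x))
    + (deriv ζ x * (deriv m (log (x / ℓ)) / x)
      + ζ x * ((deriv (deriv m) (log (x / ℓ)) - deriv m (log (x / ℓ))) / x ^ 2))
    + ((-deriv (deriv ζ) x * β x + -deriv ζ x * β1 x)
      + (-deriv ζ x * β1 x + (1 - ζ x) * β2 x))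

theorem hasDerivAt_MtG {ζ : ℝ → ℝ} {xb : ℝ} (hζ : CutB ζ xb) (hβ : Base β β1 β2 c₂ N S)
    (h : MBound c₀ B m) (hℓ : 0 < ℓ) {x : ℝ} (hx : x ∈ Ioo (0 : ℝ) 1) :
    HasDerivAt (MtG ζ β m ℓ) (Mt1G ζ β β1 m ℓ x) x := by
  have h1 := hasDerivAt_cut hζ x
  have h2 := (h.d1 (log (x / ℓ))).comp x (hasDerivAt_logdiv hℓ hx.1)
  have h3 := hβ.d1 x hx
  have h4 := (h1.mul h2).add ((h1.const_sub 1).mul h3)
  refine h4.congr_deriv ?_
  unfold Mt1G
  simp only [Function.comp]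
  ring

theorem hasDerivAt_Mt1G {ζ : ℝ → ℝ} {xb : ℝ} (hζ : CutB ζ xb) (hβ : Base β β1 β2 c₂ N S)
    (h : MBound c₀ B m) (hℓ : 0 < ℓ) {x : ℝ} (hx : x ∈ Ioo (0 : ℝ) 1) :
    HasDerivAt (Mt1G ζ β β1 m ℓ) (Mt2G ζ β β1 β2 m ℓ x) x := by
  have hx0 : x ≠ 0 := hx.1.ne'
  have h1 := hasDerivAt_cut hζ x
  have h1' := hasDerivAt_cut' hζ x
  have h2 := (h.d1 (log (x / ℓ))).comp x (hasDerivAt_logdiv hℓ hx.1)
  have h2' := ((h.d2 (log (x / ℓ))).comp x (hasDerivAt_logdiv hℓ hx.1)).div (hasDerivAt_id x) hx0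
  have h3 := hβ.d1 x hx
  have h3' := hβ.d2 x hx
  have h4 := ((h1'.mul h2).add (h1.mul h2')).add ((h1'.neg.mul h3).add ((h1.const_sub 1).mul h3'))
  refine h4.congr_deriv ?_
  unfold Mt2G
  simp only [Function.comp, id, Pi.neg_apply, Pi.div_apply]
  (clear * - hx0; field_simp)

theorem MtG_low {ζ : ℝ → ℝ} {xb : ℝ} (hζ : CutB ζ xb) (hβ : Base β β1 β2 c₂ N S)
    (h : MBound c₀ B m) {x : ℝ} (hx : x ∈ Ioo (0 : ℝ) 1) :
    min c₀ c₂ ≤ MtG ζ β m ℓ x := by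
  unfold MtG
  have h1 := h.low (log (x / ℓ))
  have h2 := hβ.low x hx
  have h3 := hζ.nonneg x
  have h4 := hζ.le_one x
  have h5 : min c₀ c₂ ≤ m (log (x / ℓ)) := (min_le_left _ _).trans h1
  have h6 : min c₀ c₂ ≤ β x := (min_le_right _ _).trans h2
  nlinarith only [h3, h5, h4, h6]

theorem MtG_eq_half {ζ : ℝ → ℝ} {xb : ℝ} (hζ : CutB ζ xb) {x : ℝ} (hx : 1 / 2 ≤ x) :
    MtG ζ β m ℓ x = β x := by
  unfold MtG
  rw [hζ.zero _ hx]
  ring

/-- **Uniform bound for `x S₀`.** -/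
theorem exists_scal_boundG {ζ : ℝ → ℝ} {xb : ℝ} (hζ : CutB ζ xb) (hβ : Base β β1 β2 c₂ N S)
    {c₀ B : ℝ} (hc : 0 < c₀) : ∃ C : ℝ, 0 ≤ C ∧
    ∀ (m : ℝ → ℝ) (_ : MBound c₀ B m) (ℓ : ℝ) (_ : 0 < ℓ) (φ : ℝ → ℝ)
      (_ : ∀ x ∈ Ioo (0 : ℝ) 1, φ x * (MtG ζ β m ℓ x / x) = 1), ∀ x ∈ Ioo (0 : ℝ) 1,
        |x * scal 8 φ x| ≤ C := by
  obtain ⟨K, hK, hKb⟩ := cut_bounds hζ
  have hN := hβ.N_nonneg
  have hS := hβ.S_nonneg
  have hc2 := hβ.c₂_pos
  set c₁ := min c₀ c₂ with hc₁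
  have hc1 : 0 < c₁ := lt_min hc hc2
  set B' := max B 0 with hB'
  have hB0 : 0 ≤ B' := le_max_right _ _
  -- bound for `|x M'|`, `|x² M''|` on `(0, 3/4]`
  set P := K * B' + B' + K * N + N with hP
  set Q := K * B' + 2 * K * B' + 2 * B' + K * N + 2 * K * N + N with hQ
  have hP0 : 0 ≤ P := by (clear * - hK hN hB0; positivity)
  have hQ0 : 0 ≤ Q := by (clear * - hK hN hB0; positivity)
  refine ⟨56 + (56 / c₁ + 16 * (P / c₁ ^ 2) + (2 * P ^ 2 / c₁ ^ 3 + Q / c₁ ^ 2)) + S,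
    by (clear * - hc1 hP0 hQ0 hS; positivity), ?_⟩
  intro m hm ℓ hℓ φ hφ x hx
  have hMpos : ∀ y ∈ Ioo (0 : ℝ) 1, 0 < MtG ζ β m ℓ y := fun y hy =>
    lt_of_lt_of_le hc1 (MtG_low hζ hβ hm hy)
  have hφ' : ∀ y ∈ Ioo (0 : ℝ) 1, φ y = y * (1 / MtG ζ β m ℓ y) := by
    intro y hy
    have h1 := hφ y hy
    have h2 := hMpos y hy
    have h3 := hy.1
    field_simp at h1 ⊢
    linarith only [h1]
  have hB : ∀ z, |m z| ≤ B' ∧ |deriv m z| ≤ B' ∧ |deriv (deriv m) z| ≤ B' := fun z =>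
    ⟨(hm.b0 z).trans (le_max_left _ _), (hm.b1 z).trans (le_max_left _ _),
      (hm.b2 z).trans (le_max_left _ _)⟩
  rcases le_or_gt x (3 / 4) with hx34 | hx34
  · rw [scal_of_M hφ' (fun y hy => (hMpos y hy).ne') (fun y hy => hasDerivAt_MtG hζ hβ hm hℓ hy)
      (fun y hy => hasDerivAt_Mt1G hζ hβ hm hℓ hy) hx]
    have hM := MtG_low (ℓ := ℓ) hζ hβ hm hx
    have hMp := hMpos x hx
    obtain ⟨k1, k2⟩ := hKb x ⟨hx.1.le, hx.2.le⟩
    obtain ⟨m0, m1, m2⟩ := hB (log (x / ℓ))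
    have n0 := hβ.b0 x hx hx34
    have n1 := hβ.b1 x hx hx34
    have n2 := hβ.b2 x hx hx34
    have hx0 := hx.1
    have hx1 : x ≤ 1 := hx.2.le
    have hchi0 := hζ.nonneg x
    have hchi1 := hζ.le_one x
    have hc' : 0 ≤ 1 - ζ x := by linarith only [hchi1]
    have hc'' : 1 - ζ x ≤ 1 := by linarith only [hchi0]
    -- |x M'| ≤ P
    have hM1 : |x * Mt1G ζ β β1 m ℓ x| ≤ P := by
      have e : x * Mt1G ζ β β1 m ℓ x = x * (deriv ζ x * m (log (x / ℓ)))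
          + ζ x * deriv m (log (x / ℓ))
          + (-(x * (deriv ζ x * β x)) + x * ((1 - ζ x) * β1 x)) := by
        unfold Mt1G
        (clear * - hx0; field_simp)
      rw [e]
      have t1 : |x * (deriv ζ x * m (log (x / ℓ)))| ≤ K * B' := by
        rw [abs_mul, abs_mul, abs_of_pos hx0]
        calc x * (|deriv ζ x| * |m (log (x / ℓ))|) ≤ 1 * (K * B') := by
              apply mul_le_mul hx1 (mul_le_mul k1 m0 (abs_nonneg _) hK) (by (clear * -; positivity)) zero_le_one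
          _ = K * B' := one_mul _
      have t2 : |ζ x * deriv m (log (x / ℓ))| ≤ B' := by
        rw [abs_mul, abs_of_nonneg hchi0]
        calc ζ x * |deriv m (log (x / ℓ))| ≤ 1 * B' :=
              mul_le_mul hchi1 m1 (abs_nonneg _) zero_le_one
          _ = B' := one_mul _
      have t3 : |-(x * (deriv ζ x * β x))| ≤ K * N := by
        rw [abs_neg, abs_mul, abs_mul, abs_of_pos hx0]
        calc x * (|deriv ζ x| * |β x|) ≤ 1 * (K * N) := by
              apply mul_le_mul hx1 (mul_le_mul k1 n0 (abs_nonneg _) hK) (by (clear * -; positivity)) zero_le_one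
          _ = K * N := by ring
      have t4 : |x * ((1 - ζ x) * β1 x)| ≤ N := by
        rw [abs_mul, abs_mul, abs_of_pos hx0, abs_of_nonneg hc']
        calc x * ((1 - ζ x) * |β1 x|) ≤ 1 * (1 * N) := by
              apply mul_le_mul hx1 (mul_le_mul hc'' n1 (abs_nonneg _) zero_le_one)
                (mul_nonneg hc' (abs_nonneg _)) zero_le_one
          _ = N := by ring
      refine (abs_add_le _ _).trans ?_
      have u1 := abs_add_le (x * (deriv ζ x * m (log (x / ℓ))))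
        (ζ x * deriv m (log (x / ℓ)))
      have u2 := abs_add_le (-(x * (deriv ζ x * β x)))
        (x * ((1 - ζ x) * β1 x))
      rw [hP]; linarith only [t1, t2, t3, t4, u1, u2]
    have hM2 : |x ^ 2 * Mt2G ζ β β1 β2 m ℓ x| ≤ Q := by
      have e : x ^ 2 * Mt2G ζ β β1 β2 m ℓ x = x ^ 2 * (deriv (deriv ζ) x * m (log (x / ℓ)))
          + x * (2 * (deriv ζ x * deriv m (log (x / ℓ))))
          + ζ x * (deriv (deriv m) (log (x / ℓ)) - deriv m (log (x / ℓ)))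
          + (-(x ^ 2 * (deriv (deriv ζ) x * β x))
            + (-(x ^ 2 * (2 * (deriv ζ x * β1 x)))
            + x ^ 2 * ((1 - ζ x) * β2 x))) := by
        unfold Mt2G
        field_simp
        ring
      rw [e]
      have hxx : x ^ 2 ≤ 1 := by nlinarith only [hx0, hx34]
      have hxx0 : 0 ≤ x ^ 2 := by (clear * - hx0; positivity)
      have t1 : |x ^ 2 * (deriv (deriv ζ) x * m (log (x / ℓ)))| ≤ K * B' := by
        rw [abs_mul, abs_mul, abs_of_nonneg hxx0]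
        calc x ^ 2 * (|deriv (deriv ζ) x| * |m (log (x / ℓ))|) ≤ 1 * (K * B') := by
              apply mul_le_mul hxx (mul_le_mul k2 m0 (abs_nonneg _) hK) (by (clear * -; positivity)) zero_le_one
          _ = K * B' := one_mul _
      have t2 : |x * (2 * (deriv ζ x * deriv m (log (x / ℓ))))| ≤ 2 * K * B' := by
        rw [abs_mul, abs_mul, abs_mul, abs_of_pos hx0, abs_of_pos (two_pos : (0 : ℝ) < 2)]
        calc x * (2 * (|deriv ζ x| * |deriv m (log (x / ℓ))|)) ≤ 1 * (2 * (K * B')) := by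
              apply mul_le_mul hx1 _ (by (clear * -; positivity)) zero_le_one
              exact mul_le_mul_of_nonneg_left (mul_le_mul k1 m1 (abs_nonneg _) hK) two_pos.le
          _ = 2 * K * B' := by ring
      have t3 : |ζ x * (deriv (deriv m) (log (x / ℓ)) - deriv m (log (x / ℓ)))| ≤ 2 * B' := by
        rw [abs_mul, abs_of_nonneg hchi0]
        calc ζ x * |deriv (deriv m) (log (x / ℓ)) - deriv m (log (x / ℓ))|
            ≤ 1 * (B' + B') := by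
              apply mul_le_mul hchi1 _ (abs_nonneg _) zero_le_one
              exact (abs_sub _ _).trans (add_le_add m2 m1)
          _ = 2 * B' := by ring
      have t4 : |-(x ^ 2 * (deriv (deriv ζ) x * β x))| ≤ K * N := by
        rw [abs_neg, abs_mul, abs_mul, abs_of_nonneg hxx0]
        calc x ^ 2 * (|deriv (deriv ζ) x| * |β x|) ≤ 1 * (K * N) := by
              apply mul_le_mul hxx (mul_le_mul k2 n0 (abs_nonneg _) hK) (by (clear * -; positivity)) zero_le_one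
          _ = K * N := by ring
      have t5 : |-(x ^ 2 * (2 * (deriv ζ x * β1 x)))| ≤ 2 * K * N := by
        rw [abs_neg, abs_mul, abs_mul, abs_mul, abs_of_nonneg hxx0,
          abs_of_pos (two_pos : (0 : ℝ) < 2)]
        calc x ^ 2 * (2 * (|deriv ζ x| * |β1 x|)) ≤ 1 * (2 * (K * N)) := by
              apply mul_le_mul hxx _ (by (clear * -; positivity)) zero_le_one
              exact mul_le_mul_of_nonneg_left (mul_le_mul k1 n1 (abs_nonneg _) hK) two_pos.le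
          _ = 2 * K * N := by ring
      have t6 : |x ^ 2 * ((1 - ζ x) * β2 x)| ≤ N := by
        rw [abs_mul, abs_mul, abs_of_nonneg hxx0, abs_of_nonneg hc']
        calc x ^ 2 * ((1 - ζ x) * |β2 x|) ≤ 1 * (1 * N) := by
              apply mul_le_mul hxx (mul_le_mul hc'' n2 (abs_nonneg _) zero_le_one)
                (mul_nonneg hc' (abs_nonneg _)) zero_le_one
          _ = N := by ring
      set a1 := x ^ 2 * (deriv (deriv ζ) x * m (log (x / ℓ)))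
      set a2 := x * (2 * (deriv ζ x * deriv m (log (x / ℓ))))
      set a3 := ζ x * (deriv (deriv m) (log (x / ℓ)) - deriv m (log (x / ℓ)))
      set a4 := -(x ^ 2 * (deriv (deriv ζ) x * β x))
      set a5 := -(x ^ 2 * (2 * (deriv ζ x * β1 x)))
      set a6 := x ^ 2 * ((1 - ζ x) * β2 x)
      have u1 := abs_add_le (a1 + a2 + a3) (a4 + (a5 + a6))
      have u2 := abs_add_le (a1 + a2) a3
      have u3 := abs_add_le a1 a2
      have u4 := abs_add_le a4 (a5 + a6)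
      have u5 := abs_add_le a5 a6
      rw [hQ]; linarith only [t1, t2, t3, t4, t5, t6, u1, u2, u3, u4, u5]
    -- final
    have j1 : 1 / MtG ζ β m ℓ x ≤ 1 / c₁ := one_div_le_one_div_of_le hc1 hM
    have j1' : 0 ≤ 1 / MtG ζ β m ℓ x := by (clear * - hMp; positivity)
    have j2 : 1 / MtG ζ β m ℓ x ^ 2 ≤ 1 / c₁ ^ 2 :=
      one_div_le_one_div_of_le (by positivity) (pow_le_pow_left₀ hc1.le hM 2)
    have j3 : 1 / MtG ζ β m ℓ x ^ 3 ≤ 1 / c₁ ^ 3 :=
      one_div_le_one_div_of_le (by positivity) (pow_le_pow_left₀ hc1.le hM 3)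
    have s1 : |16 * (x * (-Mt1G ζ β β1 m ℓ x / MtG ζ β m ℓ x ^ 2))| ≤ 16 * (P / c₁ ^ 2) := by
      have e : 16 * (x * (-Mt1G ζ β β1 m ℓ x / MtG ζ β m ℓ x ^ 2))
          = -(16 * ((x * Mt1G ζ β β1 m ℓ x) * (1 / MtG ζ β m ℓ x ^ 2))) := by ring
      rw [e, abs_neg, abs_mul, abs_mul, abs_of_pos (by norm_num : (0 : ℝ) < 16),
        abs_of_nonneg (by positivity : 0 ≤ 1 / MtG ζ β m ℓ x ^ 2)]
      have := mul_le_mul hM1 j2 (by positivity) hP0
      have e2 : P * (1 / c₁ ^ 2) = P / c₁ ^ 2 := by ring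
      rw [e2] at this
      linarith only [this]
    have s2 : |x ^ 2 * (2 * Mt1G ζ β β1 m ℓ x ^ 2 / MtG ζ β m ℓ x ^ 3
        - Mt2G ζ β β1 β2 m ℓ x / MtG ζ β m ℓ x ^ 2)|
        ≤ 2 * P ^ 2 / c₁ ^ 3 + Q / c₁ ^ 2 := by
      have e : x ^ 2 * (2 * Mt1G ζ β β1 m ℓ x ^ 2 / MtG ζ β m ℓ x ^ 3
          - Mt2G ζ β β1 β2 m ℓ x / MtG ζ β m ℓ x ^ 2)
          = 2 * (x * Mt1G ζ β β1 m ℓ x) ^ 2 * (1 / MtG ζ β m ℓ x ^ 3)
            - (x ^ 2 * Mt2G ζ β β1 β2 m ℓ x) * (1 / MtG ζ β m ℓ x ^ 2) := by ring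
      rw [e]
      refine (abs_sub _ _).trans (add_le_add ?_ ?_)
      · rw [abs_of_nonneg (by (clear * - hMp; positivity))]
        have h1 : (x * Mt1G ζ β β1 m ℓ x) ^ 2 ≤ P ^ 2 := sq_le_sq' (by
          have := (abs_le.1 hM1).1; linarith only [this]) (abs_le.1 hM1).2
        have h2 := mul_le_mul h1 j3 (by positivity) (by (clear * -; positivity) : 0 ≤ P ^ 2)
        have e2 : 2 * P ^ 2 / c₁ ^ 3 = 2 * (P ^ 2 * (1 / c₁ ^ 3)) := by ring
        rw [e2]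
        linarith only [h2]
      · rw [abs_mul, abs_of_nonneg (by (clear * - hMp; positivity) : 0 ≤ 1 / MtG ζ β m ℓ x ^ 2)]
        have := mul_le_mul hM2 j2 (by (clear * - hMp; positivity)) hQ0
        have e2 : Q / c₁ ^ 2 = Q * (1 / c₁ ^ 2) := by ring
        rw [e2]
        exact this
    have s0 : |56 * (1 / MtG ζ β m ℓ x)| ≤ 56 / c₁ := by
      rw [abs_of_nonneg (by positivity)]
      have : 56 / c₁ = 56 * (1 / c₁) := by ring
      rw [this]; linarith only [j1]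
    set b0 := 56 * (1 / MtG ζ β m ℓ x)
    set b1 := 16 * (x * (-Mt1G ζ β β1 m ℓ x / MtG ζ β m ℓ x ^ 2))
    set b2 := x ^ 2 * (2 * Mt1G ζ β β1 m ℓ x ^ 2 / MtG ζ β m ℓ x ^ 3
      - Mt2G ζ β β1 β2 m ℓ x / MtG ζ β m ℓ x ^ 2)
    have u1 := abs_sub (56 : ℝ) (b0 + b1 + b2)
    have u2 := abs_add_le (b0 + b1) b2
    have u3 := abs_add_le b0 b1
    have h56 : |(56 : ℝ)| = 56 := by norm_num
    linarith only [s0, s1, s2, u1, u2, u3, h56, hS]
  · -- the background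
    have hxI : x ∈ Ioo (3 / 4 : ℝ) 1 := ⟨hx34, hx.2⟩
    have e1 : ∀ y ∈ Ioo (3 / 4 : ℝ) 1, y ^ (8 - 1) * φ y = y ^ (8 - 1) * (y * (1 / β y)) := by
      intro y hy
      have hy' : y ∈ Ioo (0 : ℝ) 1 := ⟨by linarith only [hy.1], hy.2⟩
      rw [hφ' y hy', MtG_eq_half hζ (by linarith only [hy.1] : (1 : ℝ) / 2 ≤ y)]
    have e2 : ∀ y ∈ Ioo (3 / 4 : ℝ) 1, deriv (fun y => y ^ (8 - 1) * φ y) y
        = deriv (fun y => y ^ (8 - 1) * (y * (1 / β y))) y := by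
      intro y hy
      apply Filter.EventuallyEq.deriv_eq
      filter_upwards [isOpen_Ioo.mem_nhds hy] with z hz
      exact e1 z hz
    have e3 : deriv (deriv (fun y => y ^ (8 - 1) * φ y)) x
        = deriv (deriv (fun y => y ^ (8 - 1) * (y * (1 / β y)))) x := by
      apply Filter.EventuallyEq.deriv_eq
      filter_upwards [isOpen_Ioo.mem_nhds hxI] with z hz
      exact e2 z hz
    have hsc := hβ.sc x hxI
    have e4 : scal 8 φ x = scal 8 (fun y => y * (1 / β y)) x := by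
      unfold scal
      rw [e3]
    rw [e4]
    have : 0 ≤ 56 + (56 / c₁ + 16 * (P / c₁ ^ 2) + (2 * P ^ 2 / c₁ ^ 3 + Q / c₁ ^ 2)) := by
      (clear * - hc1 hP0 hQ0; positivity)
    linarith only [this, hsc]

end

end P264.L
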