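import Vale.Agent.P264.H849.GBase

/-!
# P264 / H849 / GFam : the family of localised initial data on an arbitrary background
-/

set_option linter.all false

open MeasureTheory Set Filter Topology Real
open scoped ContDiff

namespace P264.L

open P264.B

section
variable {c₀ B ℓ : ℝ} {m : ℝ → ℝ} {U₁ : ℝ → ℝ}

/-- The momentum profile of a solution at time `0`. -/
theorem phi_initG {ζ : ℝ → ℝ} {T : ℝ} (hT : 0 < T) {U₀ : ℝ → ℝ} {U φ : ℝ → ℝ → ℝ}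
    (H : IsFlowU 8 T U₀ U φ)
    (hU₀ : ∀ x, 0 < x → x < 1 → deriv (deriv U₀) x
        = ζ x * ((m (log (x / ℓ)) - 1) / x - 1 / (1 - x)) + (1 - ζ x) * deriv (deriv U₁) x) {x : ℝ} (hx : x ∈ Ioo (0 : ℝ) 1) :
    φ 0 x * (MtG ζ (bet U₁) m ℓ x / x) = 1 := by
  have h0 : (0 : ℝ) ∈ Icc 0 T := ⟨le_rfl, hT.le⟩
  have h1 := H.rel 0 h0 x hx
  have hopen : IsOpen (Ioo (0 : ℝ) 1) := isOpen_Ioo
  have e1 : ∀ y ∈ Ioo (0 : ℝ) 1, deriv (U 0) y = deriv U₀ y := by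
    intro y hy
    apply Filter.EventuallyEq.deriv_eq
    filter_upwards [hopen.mem_nhds hy] with z hz
    exact H.init z ⟨hz.1.le, hz.2.le⟩
  have e2 : deriv (deriv (U 0)) x = deriv (deriv U₀) x := by
    apply Filter.EventuallyEq.deriv_eq
    filter_upwards [hopen.mem_nhds hx] with z hz
    exact e1 z hz
  rw [e2, hU₀ x hx.1 hx.2] at h1
  have hx0 : x ≠ 0 := hx.1.ne'
  have hx1 : 1 - x ≠ 0 := by linarith only [hx.2]
  rw [← h1]
  congr 1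
  unfold MtG bet
  field_simp
  ring

/-- `h(0,x) = φ(0,x)/x = 1/m(log (x/ℓ))` for `x ≤ 1/4`. -/
theorem h_initG {ζ : ℝ → ℝ} {xb : ℝ} (hζ : CutB ζ xb) {T : ℝ} (hT : 0 < T) {U₀ : ℝ → ℝ} {U φ : ℝ → ℝ → ℝ}
    (H : IsFlowU 8 T U₀ U φ)
    (hU₀ : ∀ x, 0 < x → x < 1 → deriv (deriv U₀) x
        = ζ x * ((m (log (x / ℓ)) - 1) / x - 1 / (1 - x)) + (1 - ζ x) * deriv (deriv U₁) x) {x : ℝ} (hx : 0 < x)
    (hx4 : x ≤ xb) : φ 0 x / x = 1 / m (log (x / ℓ)) := by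
  have h1 := phi_initG hT H hU₀ (x := x) ⟨hx, by have := hζ.xb_le; linarith⟩
  have h2 : MtG ζ (bet U₁) m ℓ x = m (log (x / ℓ)) := by
    unfold MtG
    rw [hζ.one _ hx4]
    ring
  rw [h2] at h1
  have h3 : m (log (x / ℓ)) ≠ 0 := by
    intro h
    rw [h] at h1
    simp at h1
  field_simp at h1 ⊢
  linarith only [h1]

/-- **Lipschitz dependence** of `U₀` on `m`. -/
theorem U0_lipschitzG {ζ : ℝ → ℝ} {xb : ℝ} (hζ : CutB ζ xb) {m m' : ℝ → ℝ} {ℓ Za D : ℝ} (hℓ : 0 < ℓ)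
    (hD : ∀ z, |m z - m' z| ≤ D) (hZ : ∀ z ≤ Za, m z = m' z) {U₀ V₀ : ℝ → ℝ}
    (hU : ContDiff ℝ ∞ U₀) (hV : ContDiff ℝ ∞ V₀) (hU0 : U₀ 0 = 0) (hV0 : V₀ 0 = 0)
    (hU1 : deriv U₀ 0 = 0) (hV1 : deriv V₀ 0 = 0)
    (hU₀ : ∀ x, 0 < x → x < 1 → deriv (deriv U₀) x
        = ζ x * ((m (log (x / ℓ)) - 1) / x - 1 / (1 - x)) + (1 - ζ x) * deriv (deriv U₁) x)
    (hV₀ : ∀ x, 0 < x → x < 1 → deriv (deriv V₀) x
        = ζ x * ((m' (log (x / ℓ)) - 1) / x - 1 / (1 - x)) + (1 - ζ x) * deriv (deriv U₁) x) :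
    ∀ x ∈ Icc (0 : ℝ) 1, |U₀ x - V₀ x| ≤ D * exp (-Za) / ℓ := by
  have hD0 : 0 ≤ D := (abs_nonneg _).trans (hD 0)
  have hU' : ContDiff ℝ ∞ (deriv U₀) := (contDiff_infty_iff_deriv.1 hU).2
  have hU'' : ContDiff ℝ ∞ (deriv (deriv U₀)) := (contDiff_infty_iff_deriv.1 hU').2
  have hV' : ContDiff ℝ ∞ (deriv V₀) := (contDiff_infty_iff_deriv.1 hV).2
  have hV'' : ContDiff ℝ ∞ (deriv (deriv V₀)) := (contDiff_infty_iff_deriv.1 hV').2
  set K := D * exp (-Za) / ℓ with hK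
  have h2 : ∀ x ∈ Ioo (0 : ℝ) 1, |deriv (deriv U₀) x - deriv (deriv V₀) x| ≤ K := by
    intro x hx
    have hx0 := hx.1
    rw [hU₀ x hx.1 hx.2, hV₀ x hx.1 hx.2]
    have e : ζ x * ((m (log (x / ℓ)) - 1) / x - 1 / (1 - x)) + (1 - ζ x) * deriv (deriv U₁) x
        - (ζ x * ((m' (log (x / ℓ)) - 1) / x - 1 / (1 - x)) + (1 - ζ x) * deriv (deriv U₁) x)
        = ζ x * ((m (log (x / ℓ)) - m' (log (x / ℓ))) / x) := by ring
    rw [e, abs_mul, abs_of_nonneg (hζ.nonneg x), abs_div, abs_of_pos hx0]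
    have hy : 0 < x / ℓ := by (clear * - hx0 hℓ; positivity)
    rcases le_or_gt (log (x / ℓ)) Za with h | h
    · rw [hZ _ h, sub_self, abs_zero, zero_div, mul_zero]
      (clear * - hD0 hℓ; positivity)
    · have h3 : ℓ * exp Za < x := by
        rw [lt_log_iff_exp_lt hy, lt_div_iff₀ hℓ] at h
        linarith only [h]
      calc ζ x * (|m (log (x / ℓ)) - m' (log (x / ℓ))| / x) ≤ 1 * (D / (ℓ * exp Za)) := by
            apply mul_le_mul (hζ.le_one x) _ (by (clear * - hx0; positivity)) zero_le_one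
            exact div_le_div₀ hD0 (hD _) (by positivity) h3.le
        _ = K := by
            rw [hK, exp_neg]
            (clear * - hℓ; field_simp)
  have h2' : ∀ x ∈ Icc (0 : ℝ) 1, |deriv (deriv U₀) x - deriv (deriv V₀) x| ≤ K := by
    intro x hx
    have hcl : x ∈ closure (Ioo (0 : ℝ) 1) := by
      rw [closure_Ioo zero_ne_one]
      exact hx
    have hcont : Continuous fun x => |deriv (deriv U₀) x - deriv (deriv V₀) x| :=
      (hU''.continuous.sub hV''.continuous).abs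
    have hclosed : IsClosed {x | |deriv (deriv U₀) x - deriv (deriv V₀) x| ≤ K} :=
      isClosed_le hcont continuous_const
    exact closure_minimal (fun y hy => h2 y hy) hclosed hcl
  have hd : ∀ {f : ℝ → ℝ}, ContDiff ℝ ∞ f → ∀ x, HasDerivAt f (deriv f x) x := fun hf x =>
    ((hf.differentiable (by simp)) x).hasDerivAt
  have h1 := abs_sub_le_of_deriv (f := deriv U₀) (g := deriv V₀) (a := 0) (b := 1) (τ := K)
    (fun x _ => hd hU' x) (fun x _ => hd hV' x) (by rw [hU1, hV1]) h2'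
  have h0 := abs_sub_le_of_deriv (f := U₀) (g := V₀) (a := 0) (b := 1) (τ := K)
    (fun x _ => hd hU x) (fun x _ => hd hV x) (by rw [hU0, hV0])
    (fun x hx => by simpa only [sub_zero, mul_one] using h1 x hx)
  intro x hx
  simpa only [sub_zero, mul_one] using h0 x hx

/-- `L²` version of `U0_lipschitz`. -/
theorem U0_lipschitz_L2G {ζ : ℝ → ℝ} {xb : ℝ} (hζ : CutB ζ xb) {m m' : ℝ → ℝ} {ℓ Za D : ℝ} (hℓ : 0 < ℓ)
    (hD : ∀ z, |m z - m' z| ≤ D) (hZ : ∀ z ≤ Za, m z = m' z) {U₀ V₀ : ℝ → ℝ}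
    (hU : ContDiff ℝ ∞ U₀) (hV : ContDiff ℝ ∞ V₀) (hU0 : U₀ 0 = 0) (hV0 : V₀ 0 = 0)
    (hU1 : deriv U₀ 0 = 0) (hV1 : deriv V₀ 0 = 0)
    (hU₀ : ∀ x, 0 < x → x < 1 → deriv (deriv U₀) x
        = ζ x * ((m (log (x / ℓ)) - 1) / x - 1 / (1 - x)) + (1 - ζ x) * deriv (deriv U₁) x)
    (hV₀ : ∀ x, 0 < x → x < 1 → deriv (deriv V₀) x
        = ζ x * ((m' (log (x / ℓ)) - 1) / x - 1 / (1 - x)) + (1 - ζ x) * deriv (deriv U₁) x) (k : ℕ) :
    ∫ x in (0 : ℝ)..1, x ^ k * (U₀ x - V₀ x) ^ 2 ≤ (D * exp (-Za) / ℓ) ^ 2 := by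
  have h := U0_lipschitzG hζ hℓ hD hZ hU hV hU0 hV0 hU1 hV1 hU₀ hV₀
  have h1 : ‖∫ x in (0 : ℝ)..1, x ^ k * (U₀ x - V₀ x) ^ 2‖
      ≤ (D * exp (-Za) / ℓ) ^ 2 * |(1 : ℝ) - 0| := by
    apply intervalIntegral.norm_integral_le_of_norm_le_const
    intro x hx
    rw [uIoc_of_le zero_le_one] at hx
    have hx0 := hx.1
    have h2 : (U₀ x - V₀ x) ^ 2 ≤ (D * exp (-Za) / ℓ) ^ 2 := by
      rw [← sq_abs (U₀ x - V₀ x)]
      exact pow_le_pow_left₀ (abs_nonneg _) (h x ⟨hx0.le, hx.2⟩) 2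
    rw [Real.norm_eq_abs, abs_of_nonneg (by (clear * - hx0; positivity))]
    calc x ^ k * (U₀ x - V₀ x) ^ 2 ≤ 1 * (D * exp (-Za) / ℓ) ^ 2 :=
          mul_le_mul (pow_le_one₀ hx0.le hx.2) h2 (sq_nonneg _) zero_le_one
      _ = _ := one_mul _
  have h2 := le_of_abs_le h1
  simpa only [ge_iff_le, sub_zero, abs_one, mul_one] using h2

end

/-- `DataFam` on the background `U₁`. -/
structure DataFamG (ζ U₁ : ℝ → ℝ) (xb K₁ : ℝ) (χ R ρ : ℝ → ℝ) (psi : Fin 2 → ℝ → ℝ)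
    (T s₀ z₀ c₁ A Ns M EA Z CL : ℝ) (U₀ : (Fin 2 → ℝ) → ℝ → ℝ) : Prop where
  init : ∀ b, (∀ i, |b i| ≤ A) → IsInit (U₀ b)
  aa_eq : ∀ b, (∀ i, |b i| ≤ A) → ∀ U φ, IsFlowU 8 T (U₀ b) U φ →
    ∀ i, aa (psi i) R φ T s₀ = b i
  NN_le : ∀ b, (∀ i, |b i| ≤ A) → ∀ U φ, IsFlowU 8 T (U₀ b) U φ →
    NN ρ (GG χ R φ T s₀) ≤ Ns / 2
  block_le : ∀ b, (∀ i, |b i| ≤ A) → ∀ U φ, IsFlowU 8 T (U₀ b) U φ →
    ∀ c ∈ Icc (z₀ - s₀ / 2) c₁, blockE χ R φ T c s₀ ≤ M / 4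
  far_eq : ∀ b, (∀ i, |b i| ≤ A) → ∀ U φ, IsFlowU 8 T (U₀ b) U φ →
    ∀ x, √T * exp Z ≤ x → x ≤ xb → φ 0 x = x * R (log (x / √T))
  energy : ∀ b, (∀ i, |b i| ≤ A) → ∀ U φ, IsFlowU 8 T (U₀ b) U φ →
    ∫ x in (0 : ℝ)..1, x ^ 7 * scal 8 (φ 0) x ^ 2 ≤ EA
  lip : ∀ b b', (∀ i, |b i| ≤ A) → (∀ i, |b' i| ≤ A) →
    ∫ x in (0 : ℝ)..1, x ^ 7 * (U₀ b x - U₀ b' x) ^ 2 ≤ CL ^ 2 * ‖b - b'‖ ^ 2
  shape : ∀ b, (∀ i, |b i| ≤ A) → ∀ x, 0 < x → x < 1 →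
    (ζ x = 0 → deriv (deriv (U₀ b)) x = deriv (deriv U₁) x) ∧
      |x * (deriv (deriv (U₀ b)) x - deriv (deriv U₁) x)| ≤ K₁

/-- **The hypothesis `hdata` of the final assembly**, from a family with soft bounds. -/
theorem hdata_of_familyG {U₁ : ℝ → ℝ} (hU₁ : IsInit U₁) {N₀ : ℝ} (hN₀ : ∀ x ∈ Icc (0 : ℝ) 1, |deriv (deriv U₁) x| ≤ N₀)
    {R ρ : ℝ → ℝ} {Rmin α z₀ : ℝ} (hR : Profile R Rmin α)
    {psi : Fin 2 → ℝ → ℝ} (hψfar : ∀ i z, z₀ ≤ z → psi i z = 0)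
    {m : (Fin 2 → ℝ) → ℝ → ℝ} {e : Fin 2 → ℝ → ℝ} {A Ns M : ℝ}
    (hm : ∀ b, ContDiff ℝ ∞ (m b))
    (hout : ∃ Z, ∀ b z, z ≤ -Z ∨ Z ≤ z → m b z = 1 / R z)
    {c₀ B : ℝ} (hc₀ : 0 < c₀) (hMB : ∀ b, (∀ i, |b i| ≤ A) → MBound c₀ B (m b))
    (hmass : ∀ b i, ∫ z, psi i z * (m b z - 1 / R z) = b i)
    (hlin : ∀ b b' z, m b z - m b' z = ∑ j, (b j - b' j) * e j z)
    (hes : ∀ j, ContDiff ℝ ∞ (e j)) (hec : ∀ j, HasCompactSupport (e j))
    (hNN : ∀ b, (∀ i, |b i| ≤ A) → NN ρ (fun z => 1 / m b z - R z) ≤ Ns / 2)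
    (hblock : ∀ b, (∀ i, |b i| ≤ A) → ∀ z, z₀ - 1 ≤ z →
      om (fun z => 1 / m b z - R z) z ^ 2 ≤ M / 8) :
    ∀ (ζ : ℝ → ℝ) (xb : ℝ), CutB ζ xb →
    ∀ (χ : ℝ → ℝ) (X c₁ : ℝ), Cutoff χ X → X ≤ xb / 2 → exp (c₁ + 5 / 3) ≤ X / 2 →
      ∃ EA Z T₁ : ℝ, 0 < T₁ ∧ 0 ≤ EA ∧ ∀ s₀ : ℝ, exp (-s₀) ≤ T₁ →
        ∃ (CL : ℝ) (U₀ : (Fin 2 → ℝ) → ℝ → ℝ),
          DataFamG ζ U₁ xb (|B| + 2 + N₀) χ R ρ psi (exp (-s₀)) s₀ z₀ c₁ A Ns M EA Z CL U₀ := by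
  intro ζ xb hζ χ X c₁ hχ hX8 hc₁
  obtain ⟨Z, hZ⟩ := hout
  obtain ⟨p, hp0, Zl, hZl⟩ := hR.left
  have hR0 : ∀ z, 0 < R z := fun z => hR.Rmin_pos.trans_le (hR.lower z)
  have hXp := hχ.X_pos
  have hpos : ∀ b, (∀ i, |b i| ≤ A) → ∀ z, 0 < m b z := fun b hb z =>
    hc₀.trans_le ((hMB b hb).low z)
  obtain ⟨c₂, N, S, hβ⟩ := exists_base hU₁
  obtain ⟨C, hC0, hC⟩ := exists_scal_boundG hζ hβ (c₀ := c₀) (B := B) hc₀
  -- bound for the directions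
  choose E hE using fun j => (hec j).exists_bound_of_continuous (hes j).continuous
  have hE0 : ∀ j, 0 ≤ E j := fun j => (norm_nonneg _).trans (hE j 0)
  set Es := ∑ j, E j with hEs
  have hEs0 : 0 ≤ Es := Finset.sum_nonneg fun j _ => hE0 j
  have hdiff : ∀ b b' z, |m b z - m b' z| ≤ Es * ‖b - b'‖ := by
    intro b b' z
    rw [hlin]
    refine (Finset.abs_sum_le_sum_abs _ _).trans ?_
    rw [hEs, Finset.sum_mul]
    apply Finset.sum_le_sum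
    intro j _
    rw [abs_mul, mul_comm]
    refine mul_le_mul ?_ ?_ (abs_nonneg _) (hE0 j)
    · have := hE j z
      rwa [Real.norm_eq_abs] at this
    · have := norm_le_pi_norm (b - b') j
      rwa [Real.norm_eq_abs, Pi.sub_apply] at this
  -- smallness of `T`
  set κ := X / (2 * exp (max Z z₀)) with hκ
  have hκ0 : 0 < κ := by positivity
  refine ⟨C ^ 2, Z, κ ^ 2, by positivity, by (clear * -; positivity), ?_⟩
  intro s₀ hs₀
  set T := exp (-s₀) with hT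
  have hT0 : 0 < T := exp_pos _
  set ℓ := √T with hℓ
  have hℓ0 : 0 < ℓ := Real.sqrt_pos.2 hT0
  have hℓe : ℓ = exp (-s₀ / 2) := by
    rw [hℓ, hT, Real.sqrt_eq_iff_mul_self_eq (exp_pos _).le (exp_pos _).le, ← exp_add]
    congr 1; ring
  have hℓκ : ℓ ≤ κ := by
    rw [hℓ]
    calc √T ≤ √(κ ^ 2) := Real.sqrt_le_sqrt hs₀
      _ = κ := Real.sqrt_sq hκ0.le
  have hxx : ∀ z, xx s₀ z = exp z * ℓ := by
    intro z
    rw [hℓe, xx, ← exp_add]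
    congr 1; ring
  have hxl : ∀ z, log (xx s₀ z / ℓ) = z := by
    intro z
    rw [hxx, mul_div_assoc, div_self hℓ0.ne', mul_one, log_exp]
  have hxsmall : ∀ z, z ≤ max Z z₀ → xx s₀ z ≤ X / 2 := by
    intro z hz
    rw [hxx]
    calc exp z * ℓ ≤ exp (max Z z₀) * κ :=
          mul_le_mul (exp_le_exp.2 hz) hℓκ hℓ0.le (exp_pos _).le
      _ = X / 2 := by rw [hκ]; (clear * - hXp; field_simp)
  -- the initial data
  have hex : ∀ b, (∀ i, |b i| ≤ A) → ∃ U₀ : ℝ → ℝ, IsInit U₀ ∧ U₀ 0 = 0 ∧ deriv U₀ 0 = 0 ∧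
      ∀ x, 0 < x → x < 1 → deriv (deriv U₀) x
        = ζ x * ((m b (log (x / ℓ)) - 1) / x - 1 / (1 - x)) + (1 - ζ x) * deriv (deriv U₁) x := by
    intro b hb
    refine exists_U0G hζ hU₁ (hm b) (hpos b hb) hp0 (Z := min (-Z) Zl) ?_ hℓ0
    intro z hz
    rw [hZ b z (Or.inl (hz.trans (min_le_left _ _))), hZl z (hz.trans (min_le_right _ _))]
  classical
  set U₀ : (Fin 2 → ℝ) → ℝ → ℝ := fun b =>
    if hb : ∀ i, |b i| ≤ A then Classical.choose (hex b hb) else fun _ => 0 with hU₀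
  have hspec : ∀ b, (∀ i, |b i| ≤ A) → IsInit (U₀ b) ∧ U₀ b 0 = 0 ∧ deriv (U₀ b) 0 = 0 ∧
      ∀ x, 0 < x → x < 1 → deriv (deriv (U₀ b)) x
        = ζ x * ((m b (log (x / ℓ)) - 1) / x - 1 / (1 - x)) + (1 - ζ x) * deriv (deriv U₁) x := by
    intro b hb
    have e : U₀ b = Classical.choose (hex b hb) := by
      simp only [hU₀]
      rw [dif_pos hb]
    rw [e]
    exact Classical.choose_spec (hex b hb)
  -- the solution at the initial time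
  have htt : tt T s₀ = 0 := by unfold tt; rw [← hT]; ring
  have hHH : ∀ b, (∀ i, |b i| ≤ A) → ∀ U φ, IsFlowU 8 T (U₀ b) U φ →
      ∀ z, xx s₀ z ≤ xb → HH φ T s₀ z = 1 / m b z := by
    intro b hb U φ H z hz
    unfold HH
    rw [htt, h_initG hζ hT0 H (hspec b hb).2.2.2 (show 0 < xx s₀ z from exp_pos _) hz, hxl]
  have hGG : ∀ b, (∀ i, |b i| ≤ A) → ∀ U φ, IsFlowU 8 T (U₀ b) U φ →
      GG χ R φ T s₀ = fun z => 1 / m b z - R z := by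
    intro b hb U φ H
    funext z
    unfold GG WW
    rcases le_or_gt (xx s₀ z) (X / 2) with h | h
    · rw [hχ.one _ h, one_mul, hHH b hb U φ H z (by linarith only [hX8, h, hXp])]
    · have hz : max Z z₀ < z := by
        by_contra hcon
        push Not at hcon
        exact absurd (hxsmall z hcon) (not_le.2 h)
      have hz' : Z ≤ z := (le_max_left _ _).trans hz.le
      have e1 : 1 / m b z - R z = 0 := by
        rw [hZ b z (Or.inr hz'), one_div_one_div, sub_self]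
      rw [e1]
      rcases le_or_gt (xx s₀ z) xb with h' | h'
      · rw [hHH b hb U φ H z h', e1, mul_zero]
      · rw [hχ.zero _ (by linarith only [hX8, h', hXp]), zero_mul]
  refine ⟨Es * exp Z / ℓ, U₀, ?_, ?_, ?_, ?_, ?_, ?_, ?_, ?_⟩
  · exact fun b hb => (hspec b hb).1
  · intro b hb U φ H i
    rw [← hmass b i]
    unfold aa
    apply integral_congr_ae
    refine Eventually.of_forall fun z => ?_
    simp only
    rcases lt_or_ge z z₀ with h | h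
    · have h1 := hxsmall z (h.le.trans (le_max_right _ _))
      rw [hHH b hb U φ H z (by linarith only [hX8, h1, hXp]), one_div_one_div]
    · rw [hψfar i z h, zero_mul, zero_mul]
  · intro b hb U φ H
    rw [hGG b hb U φ H]
    exact hNN b hb
  · intro b hb U φ H c hc
    unfold blockE
    rw [hGG b hb U φ H]
    have h1 : ‖∫ u in (-1 : ℝ)..1, (1 - u ^ 2) ^ 4
        * om (fun z => 1 / m b z - R z) (c + s₀ / 2 + u) ^ 2‖ ≤ M / 8 * |(1 : ℝ) - (-1)| := by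
      apply intervalIntegral.norm_integral_le_of_norm_le_const
      intro u hu
      rw [uIoc_of_le (by norm_num)] at hu
      have hu2 : u ^ 2 ≤ 1 := by nlinarith only [hu.1, hu.2]
      have h2 : (1 - u ^ 2) ^ 4 ≤ 1 := pow_le_one₀ (by linarith only [hu2]) (by nlinarith only [])
      have h3 := hblock b hb (c + s₀ / 2 + u) (by linarith only [hc.1, hu.1])
      rw [Real.norm_eq_abs, abs_of_nonneg (by (clear * -; positivity))]
      calc (1 - u ^ 2) ^ 4 * om (fun z => 1 / m b z - R z) (c + s₀ / 2 + u) ^ 2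
          ≤ 1 * (M / 8) := mul_le_mul h2 h3 (sq_nonneg _) zero_le_one
        _ = M / 8 := one_mul _
    have h2 := le_of_abs_le h1
    have h3 : M / 8 * |(1 : ℝ) - (-1)| = M / 4 := by
      rw [show (1 : ℝ) - (-1) = 2 by norm_num, abs_of_pos two_pos]; ring
    rw [h3] at h2
    exact h2
  · intro b hb U φ H x hx hx4
    have hx0 : 0 < x := lt_of_lt_of_le (by positivity) hx
    have h1 := h_initG hζ hT0 H (hspec b hb).2.2.2 hx0 hx4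
    have hlog : Z ≤ log (x / ℓ) := by
      rw [le_log_iff_exp_le (by (clear * - hx0; positivity)), le_div_iff₀ hℓ0, mul_comm]
      exact hx
    rw [hZ b _ (Or.inr hlog), one_div_one_div, div_eq_iff hx0.ne'] at h1
    rw [h1, mul_comm]
  · intro b hb U φ H
    have hb2 : ∀ x ∈ Ioo (0 : ℝ) 1, |x * scal 8 (φ 0) x| ≤ C :=
      hC (m b) (hMB b hb) ℓ hℓ0 (φ 0) (fun x hx => phi_initG hT0 H (hspec b hb).2.2.2 hx)
    have h1 : ‖∫ x in (0 : ℝ)..1, x ^ 7 * scal 8 (φ 0) x ^ 2‖ ≤ C ^ 2 * |(1 : ℝ) - 0| := by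
      apply intervalIntegral.norm_integral_le_of_norm_le_const_ae
      have hnull : ∀ᵐ x : ℝ, x ≠ 1 := by
        simp only [ne_eq, ae_iff, Decidable.not_not, ofPred_eq_eq_singleton, measure_singleton]
      filter_upwards [hnull] with x hx1 hx
      rw [uIoc_of_le zero_le_one] at hx
      have hx' : x ∈ Ioo (0 : ℝ) 1 := ⟨hx.1, lt_of_le_of_ne hx.2 hx1⟩
      have h3 : (x * scal 8 (φ 0) x) ^ 2 ≤ C ^ 2 := by
        rw [← sq_abs]
        exact pow_le_pow_left₀ (abs_nonneg _) (hb2 x hx') 2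
      have hx0 := hx'.1
      rw [Real.norm_eq_abs, abs_of_nonneg (by (clear * - hx0; positivity))]
      have e' : x ^ 7 * scal 8 (φ 0) x ^ 2 = x ^ 5 * (x * scal 8 (φ 0) x) ^ 2 := by ring
      rw [e']
      have h5 : x ^ 5 ≤ 1 := pow_le_one₀ hx0.le hx'.2.le
      calc x ^ 5 * (x * scal 8 (φ 0) x) ^ 2 ≤ 1 * C ^ 2 :=
            mul_le_mul h5 h3 (sq_nonneg _) zero_le_one
        _ = C ^ 2 := one_mul _
    have h2 := le_of_abs_le h1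
    simpa only [ge_iff_le, sub_zero, abs_one, mul_one] using h2
  · intro b b' hb hb'
    obtain ⟨i1, i2, i3, i4⟩ := hspec b hb
    obtain ⟨j1, j2, j3, j4⟩ := hspec b' hb'
    have h := U0_lipschitz_L2G hζ (m := m b) (m' := m b') (Za := -Z) (D := Es * ‖b - b'‖) hℓ0
      (hdiff b b') (fun z hz => by rw [hZ b z (Or.inl hz), hZ b' z (Or.inl hz)])
      i1.smooth j1.smooth i2 j2 i3 j3 i4 j4 7
    refine h.trans (le_of_eq ?_)
    rw [neg_neg]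
    ring
  · intro b hb x hx0 hx1
    have hB : |m b (log (x / ℓ))| ≤ |B| := ((hMB b hb).b0 _).trans (le_abs_self B)
    rw [(hspec b hb).2.2.2 x hx0 hx1]
    refine ⟨fun h => by rw [h, zero_mul, sub_zero, one_mul, zero_add], ?_⟩
    have h1x : 0 < 1 - x := by linarith only [hx1]
    have hN : |deriv (deriv U₁) x| ≤ N₀ := hN₀ x ⟨hx0.le, hx1.le⟩
    have hNn : 0 ≤ N₀ := (abs_nonneg _).trans hN
    rcases le_or_gt (1 / 2) x with h2 | h2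
    · rw [hζ.zero x h2, zero_mul, zero_add, sub_zero, one_mul, sub_self, mul_zero, abs_zero]
      have := abs_nonneg B
      linarith only [this, hNn]
    · have e : x * (ζ x * ((m b (log (x / ℓ)) - 1) / x - 1 / (1 - x))
          + (1 - ζ x) * deriv (deriv U₁) x - deriv (deriv U₁) x)
          = ζ x * (m b (log (x / ℓ)) - 1 - x / (1 - x) - x * deriv (deriv U₁) x) := by
        field_simp
        ring
      rw [e, abs_mul, abs_of_nonneg (hζ.nonneg x)]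
      have h3 : x / (1 - x) ≤ 1 := by rw [div_le_one h1x]; linarith only [h2]
      have h4 : 0 ≤ x / (1 - x) := by positivity
      have h7 : |x * deriv (deriv U₁) x| ≤ N₀ := by
        rw [abs_mul, abs_of_pos hx0]
        calc x * |deriv (deriv U₁) x| ≤ 1 * N₀ :=
              mul_le_mul hx1.le hN (abs_nonneg _) zero_le_one
          _ = N₀ := one_mul _
      have h5 : |m b (log (x / ℓ)) - 1 - x / (1 - x) - x * deriv (deriv U₁) x|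
          ≤ |B| + 2 + N₀ := by
        have h6 := abs_le.1 hB
        have h8 := abs_le.1 h7
        rw [abs_le]
        constructor <;> linarith only [h6.1, h6.2, h3, h4, h8.1, h8.2]
      calc ζ x * |m b (log (x / ℓ)) - 1 - x / (1 - x) - x * deriv (deriv U₁) x|
          ≤ 1 * (|B| + 2 + N₀) :=
            mul_le_mul (hζ.le_one x) h5 (abs_nonneg _) zero_le_one
        _ = |B| + 2 + N₀ := one_mul _

/-- **The hypothesis `hdata` of the final assembly**, from the directions `g_j` and numbers. -/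
theorem hdata_of_dirsG {U₁ : ℝ → ℝ} (hU₁ : IsInit U₁) {R ρ : ℝ → ℝ} {Rmin α : ℝ} (hρ : Continuous ρ) (hρ0 : ∀ z, 0 < ρ z)
    (hR : Profile R Rmin α) {p : Polynomial ℝ} {zm zM z₀ : ℝ}
    (hl : ∀ z ≤ zm, R z = p.eval (exp z))
    (hr : ∀ z, zM < z → ContDiffAt ℝ ∞ R z) {psi g : Fin 2 → ℝ → ℝ}
    (hψ : ∀ i, Continuous (psi i)) (hψc : ∀ i, HasCompactSupport (psi i))
    (hψfar : ∀ i z, z₀ ≤ z → psi i z = 0)
    {za zb Γ₀ Γ₁ Γ₂ E : ℝ}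
    (hg : RDirs R ρ psi g za zb Γ₀ Γ₁ Γ₂ E) (hza : zm ≤ za) (hzb : zb ≤ zM)
    (hz₀ : zM + 2 ≤ z₀ - 1)
    {d₁ d₂ D₁ D₂ K P A τ Ns M : ℝ} (hd1 : ∀ z, |deriv R z| ≤ d₁)
    (hd2 : ∀ z, |deriv (deriv R) z| ≤ d₂) (hP0 : 0 ≤ P)
    (hP : ∫ z in Icc (zm - 2) (zM + 2), ρ z ≤ P ^ 2) (hA : 0 ≤ A) (hτ : 0 < τ)
    (hεR : 4 * A * Γ₀ + τ ≤ Rmin / 2) (hD1 : d₁ + (4 * A * Γ₁ + τ) ≤ D₁)
    (hD2 : d₂ + (4 * A * Γ₂ + τ) ≤ D₂)
    (hK : (2 * (4 * A * Γ₁ + τ) ^ 2 + 2 * (4 * A * Γ₀ + τ) * (4 * A * Γ₂ + τ)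
          + 6 * (4 * A * Γ₀ + τ) * (4 * A * Γ₁ + τ) + 2 * (4 * A * Γ₀ + τ) ^ 2) / (Rmin / 2)
        + (4 * (4 * A * Γ₀ + τ) * (4 * A * Γ₁ + τ) * D₁
          + (4 * A * Γ₀ + τ) ^ 2 * (3 * D₁ + D₂)) / (Rmin / 2) ^ 2
        + 2 * (4 * A * Γ₀ + τ) ^ 2 * D₁ ^ 2 / (Rmin / 2) ^ 3 ≤ K)
    (hNs : (4 * A * E + P * K + τ) ^ 2 ≤ Ns / 2) (hM : 0 ≤ M) :
    ∃ K₁ : ℝ, 0 ≤ K₁ ∧ ∀ (ζ : ℝ → ℝ) (xb : ℝ), CutB ζ xb →
    ∀ (χ : ℝ → ℝ) (X c₁ : ℝ), Cutoff χ X → X ≤ xb / 2 → exp (c₁ + 5 / 3) ≤ X / 2 →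
      ∃ EA Z T₁ : ℝ, 0 < T₁ ∧ 0 ≤ EA ∧ ∀ s₀ : ℝ, exp (-s₀) ≤ T₁ →
        ∃ (CL : ℝ) (U₀ : (Fin 2 → ℝ) → ℝ → ℝ),
          DataFamG ζ U₁ xb K₁ χ R ρ psi (exp (-s₀)) s₀ z₀ c₁ A Ns M EA Z CL U₀ := by
  obtain ⟨m, e, hm, hout, hmass, hlin, hes, hec, ⟨B, hMB⟩, hen⟩ :=
    exists_family hρ hρ0 hR hl hr hψ hψc hg hza hzb hd1 hd2 hP0 hP hA hτ hεR hD1 hD2 hK
  have hRpos : ∀ z, 0 < R z := fun z => hR.Rmin_pos.trans_le (hR.lower z)
  have hR2 : ContDiff ℝ 2 R := hR.smooth.of_le (by norm_num)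
  obtain ⟨N₀, hN₀⟩ : ∃ N₀ : ℝ, ∀ x ∈ Icc (0 : ℝ) 1, |deriv (deriv U₁) x| ≤ N₀ := by
    have s1 : ContDiff ℝ ∞ (deriv U₁) := (contDiff_infty_iff_deriv.1 hU₁.smooth).2
    have s2 : ContDiff ℝ ∞ (deriv (deriv U₁)) := (contDiff_infty_iff_deriv.1 s1).2
    exact (isCompact_Icc (a := (0 : ℝ)) (b := 1)).exists_bound_of_continuousOn
      s2.continuous.continuousOn
  have hNn : 0 ≤ N₀ := (abs_nonneg _).trans (hN₀ 0 ⟨le_rfl, zero_le_one⟩)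
  refine ⟨|B| + 2 + N₀, by positivity, ?_⟩
  refine hdata_of_familyG hU₁ hN₀ hR hψfar (m := m) (e := e) (c₀ := 1 / 2) (B := B) hm ?_ (by norm_num)
    hMB hmass hlin hes ?_ ?_ ?_
  · refine ⟨max (2 - zm) (zM + 2), fun b z hz => hout b z ?_⟩
    rcases hz with h | h
    · left
      have := le_max_left (2 - zm) (zM + 2)
      linarith only [h, this]
    · right
      exact (le_max_right _ _).trans h
  · intro j
    refine HasCompactSupport.of_support_subset_isCompact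
      (isCompact_Icc (a := zm - 2) (b := zM + 2)) ?_
    intro z hz
    by_contra h
    refine hz (hec j z ?_)
    by_contra h'
    push Not at h'
    exact h ⟨h'.1.le, h'.2.le⟩
  · intro b hb
    exact (hen b hb).2.trans hNs
  · intro b hb z hz
    have hm2 : ContDiff ℝ 2 (m b) := contDiff_infty.1 (hm b) 2
    have hmpos : ∀ z, 0 < m b z := fun z => by
      have := (hMB b hb).low z
      linarith only [this]
    have hw : ContDiff ℝ 2 (fun z => 1 / m b z - R z) :=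
      (contDiff_const.div hm2 fun z => (hmpos z).ne').sub hR2
    have h0 : ∀ z, z ≤ zm - 2 ∨ zM + 2 ≤ z → 1 / m b z - R z = 0 := by
      intro z hz
      rw [hout b z hz, one_div_one_div, sub_self]
    rw [om_zero_of hw h0 z (Or.inr (hz₀.trans hz))]
    have : (0 : ℝ) ^ 2 = 0 := by norm_num
    rw [this]
    (clear * - hM; positivity)

end P264.L
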