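import Vale.Agent.P264.H849.GAsm

/-!
# P264 / H849 / GFin : localised blow-up of the one-dimensional flow, `n = 8`
-/

set_option linter.all false

open MeasureTheory Set Filter Real
open scoped ContDiff Topology

namespace P264.L

open P264.B

/-- The analytic half: certificates + numbers + initial data give `¬ LongTime 8`. -/
theorem local_of_certG {ζ U₁ : ℝ → ℝ} {xb K₁ : ℝ} (hζ : CutB ζ xb) (hxb : 0 < xb) {R ρ : ℝ → ℝ} {psi : Fin 2 → ℝ → ℝ} {lam : Fin 2 → ℝ}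
    {ν κ₁ κ₂ Rmin α z₀ rf E₃ δ κ C₀ e₁ e₂ Kr Kp Kq K₂ Kinf η M Ns A : ℝ}
    (hC : Cert R ρ psi lam ν κ₁ κ₂ Rmin α δ κ C₀ e₁ e₂ Kr Kp Kq K₂ Kinf z₀)
    (hF : FarCert R ρ z₀ rf E₃)
    -- numbers of the far field
    (hη : 0 ≤ η) (hη2 : η ≤ 1 / 20) (hη3 : η ^ 2 ≤ 60 * M) (hM : 0 < M) (hNs : 0 < Ns)
    (hNsM : Ns / rf ≤ M / 4) (hKinf : Kinf * √Ns ≤ η)
    (hMη : 22 / 10 * √M < 79 / 100 * η) (hE : 1320000 * E₃ ≤ M / 16)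
    (hA : 0 < A) (hα : α * (1 + η) < 1) (hα0 : 0 < α)
    -- numbers of the near field
    (hκη : η * (2 + η) ≤ κ)
    (hKK : Kinf ^ 2 * Ns * K₂ + η ^ 2 / 1000000 ≤ κ * δ / 8)
    (hCq : 285 * C₀ * Kq ^ 2 * Ns ≤ δ)
    (hnum : (5 * C₀ * A ^ 2 + 2 / κ * e₁ ^ 2) / (7 / 4 * δ) ≤ 3 / 4 * Ns)
    (hscal : ∀ i, 4 / 3 * (Kr * √Ns + Kp * Ns) + e₂ < lam i * A)
    -- data, for every small `T`
    (hdata : ∀ (χ : ℝ → ℝ) (X c₁ : ℝ), Cutoff χ X → X ≤ xb / 2 → exp (c₁ + 5 / 3) ≤ X / 2 →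
      ∃ EA Z T₁ : ℝ, 0 < T₁ ∧ 0 ≤ EA ∧ ∀ s₀ : ℝ, exp (-s₀) ≤ T₁ →
        ∃ (CL : ℝ) (U₀ : (Fin 2 → ℝ) → ℝ → ℝ),
          DataFamG ζ U₁ xb K₁ χ R ρ psi (exp (-s₀)) s₀ z₀ c₁ A Ns M EA Z CL U₀)
    {ε₀ : ℝ} (hε₀ : 0 < ε₀) :
    ∃ T : ℝ, 0 < T ∧ T ≤ ε₀ ∧ ∃ U₀ : ℝ → ℝ, IsInit U₀ ∧
      (∀ x, 0 < x → x < 1 → (ζ x = 0 → deriv (deriv U₀) x = deriv (deriv U₁) x) ∧
        |x * (deriv (deriv U₀) x - deriv (deriv U₁) x)| ≤ K₁) ∧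
      ∀ U φ : ℝ → ℝ → ℝ, ¬ IsFlowU 8 T U₀ U φ := by
  have hRp : ∀ z, 0 < R z := fun z => hC.profile.Rmin_pos.trans_le (hC.profile.lower z)
  have hKr : 0 ≤ Kr := (integral_nonneg fun z => by
    have := hRp z
    (clear * - this; positivity)).trans (hC.H3r 0)
  have hbsq : ∀ z, 0 ≤ bsq ρ z := fun z => by
    unfold bsq
    exact integral_nonneg fun s => div_nonneg (sq_nonneg _) (hC.weight.pos s).le
  have hKp : 0 ≤ Kp := (integral_nonneg fun z =>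
    div_nonneg (mul_nonneg (abs_nonneg _) (hbsq z)) (hRp z).le).trans (hC.H3p 0)
  have hδ := hC.δ_pos
  have hκ := hC.κ_pos
  have hC0 := hC.C₀_nonneg
  have hη4 : η ≤ 1 / 4 := by linarith only [hη2]
  refine local_assemblyG hζ hxb (dd := 7 / 4 * δ) (CC := 5 / 2 * C₀) (Cε := 2 / κ) (by (clear * - hδ; positivity))
    (by (clear * - hC0; positivity)) hC hF ?_ ?_ hη hη2 hη3 hM hNs hNsM hKinf hMη hE hA (by positivity) ?_ hα hα0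
    hdata hε₀
  · intro U₀ U φ χ T X s hφ hχ hs hsm hz hN
    have h := energy_ineq hC hφ hχ hs hη hη4 hκη hKK hCq hN hsm hz
    linarith only [h]
  · intro U₀ U φ χ T X s hφ hχ hs hsm hz hN i
    have h := scalar_bound hC hφ hχ hs hη hη4 hsm hz i
    have h1 : √(NN ρ (GG χ R φ T s)) ≤ √Ns := sqrt_le_sqrt hN
    have h2 : Kr * √(NN ρ (GG χ R φ T s)) ≤ Kr * √Ns := mul_le_mul_of_nonneg_left h1 hKr
    have h3 : Kp * NN ρ (GG χ R φ T s) ≤ Kp * Ns := mul_le_mul_of_nonneg_left hN hKp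
    have h4 := hscal i
    linarith only [h4, h3, h2, h]
  · have : 2 * (5 / 2 * C₀) * A ^ 2 = 5 * C₀ * A ^ 2 := by ring
    rw [this]
    exact hnum

end P264.L

namespace P264.L

open P264.B P264.Prof

/-- The hypothesis `hdata` for the profile of `n = 8`, localised. -/
theorem hdata8_localG {U₁ : ℝ → ℝ} (hU₁ : IsInit U₁) : ∃ K₁ : ℝ, 0 ≤ K₁ ∧ ∀ (ζ : ℝ → ℝ) (xb : ℝ), CutB ζ xb →
    ∀ (χ : ℝ → ℝ) (X c₁ : ℝ), Cutoff χ X → X ≤ xb / 2 → exp (c₁ + 5 / 3) ≤ X / 2 →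
      ∃ EA Z T₁ : ℝ, 0 < T₁ ∧ 0 ≤ EA ∧ ∀ s₀ : ℝ, exp (-s₀) ≤ T₁ →
        ∃ (CL : ℝ) (U₀ : (Fin 2 → ℝ) → ℝ → ℝ),
          DataFamG ζ U₁ xb K₁ χ Rz rhoz psi8 (exp (-s₀)) s₀ 12 c₁ (18 / 10 ^ 9) (25 / 10 ^ 9)
            (144 / 10 ^ 7) EA Z CL U₀ :=
  P264.L.hdata_of_dirsG hU₁ (Rmin := 1157 / 10000) (α := alpha8) (p := pleft) (zm := Real.log (1 / 2))
    (zM := Real.log 256) (d₁ := 11 / 10) (d₂ := 51 / 10) (D₁ := 6 / 5) (D₂ := 26 / 5)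
    (K := 1 / 10 ^ 6) (P := 25) (τ := 1 / 10 ^ 6) rhoz_continuous rhoz_pos profile8 Rz_left'
    Rz_smooth_right (fun i => (psi8_smooth i).continuous) psi8_supp psi8_far rdirs8
    (Real.log_nonpos (by norm_num) (by norm_num))
    (Real.log_le_log (by norm_num) (by norm_num))
    log2_bounds.2 Rz_d1 Rz_d2 (by norm_num) rhoz_integral (by norm_num) (by norm_num)
    (by norm_num) (by norm_num) (by norm_num) (by (clear * -; norm_num)) (by norm_num) (by norm_num)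

/-- Localised blow-up in an arbitrarily short time, before the choice of the affine gauge. -/
theorem local8G {U₁ : ℝ → ℝ} (hU₁ : IsInit U₁) : ∃ K₁ : ℝ, 0 ≤ K₁ ∧ ∀ (ζ : ℝ → ℝ) (xb : ℝ), CutB ζ xb → 0 < xb →
    ∀ ε₀ : ℝ, 0 < ε₀ →
    ∃ T : ℝ, 0 < T ∧ T ≤ ε₀ ∧ ∃ U₀ : ℝ → ℝ, IsInit U₀ ∧
      (∀ x, 0 < x → x < 1 → (ζ x = 0 → deriv (deriv U₀) x = deriv (deriv U₁) x) ∧
        |x * (deriv (deriv U₀) x - deriv (deriv U₁) x)| ≤ K₁) ∧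
      ∀ U φ : ℝ → ℝ → ℝ, ¬ IsFlowU 8 T U₀ U φ := by
  obtain ⟨K₁, hK₁, hdat⟩ := hdata8_localG hU₁
  refine ⟨K₁, hK₁, fun ζ xb hζ hxb ε₀ hε₀ => ?_⟩
  have hsq : √(25 / 10 ^ 9 : ℝ) ≤ 1582 / 10 ^ 7 := by
    rw [Real.sqrt_le_left (by norm_num)]
    norm_num
  have hM : √(144 / 10 ^ 7 : ℝ) < 38 / 10 ^ 4 := by
    rw [Real.sqrt_lt' (by norm_num)]
    norm_num
  have hα := alpha8_bounds
  refine local_of_certG hζ hxb (η := 12 / 1000) (M := 144 / 10 ^ 7) (Ns := 25 / 10 ^ 9)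
    (A := 18 / 10 ^ 9) (cert8 P264.H3.h3block) farCert8 (by norm_num) (by norm_num) (by norm_num)
    (by norm_num) (by norm_num) (by norm_num) ?_ ?_ (by norm_num) (by norm_num) ?_ ?_
    (by norm_num) (by norm_num) (by norm_num) (by norm_num) ?_ (hdat ζ xb hζ) hε₀
  · linarith only [hsq]
  · linarith only [hM]
  · linarith only [hα]
  · linarith only [hα]
  · intro i
    have := lam8_ge i
    linarith only [hsq, this]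

end P264.L
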