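import Vale.Agent.P264.H849.GFin

/-!
# P264 / H849 / GLoc : localised blow-up of the one-dimensional flow on an arbitrary background
-/

set_option linter.all false

open MeasureTheory Set Filter Real
open scoped ContDiff Topology

namespace P264.L

open P264.B

/-- The second derivative does not see affine functions. -/
theorem deriv2_add_affine {f : ℝ → ℝ} (p q : ℝ) {x : ℝ} (hf : ∀ᶠ y in 𝓝 x, DifferentiableAt ℝ f y) :
    deriv (deriv fun y => f y + (p + q * y)) x = deriv (deriv f) x := by
  have h : deriv (fun y => f y + (p + q * y)) =ᶠ[𝓝 x] fun y => deriv f y + q := by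
    filter_upwards [hf] with y hy
    have h2 : HasDerivAt (fun y : ℝ => p + q * y) q y := by
      simpa only [mul_one] using ((hasDerivAt_id' y).const_mul q).const_add p
    exact (hy.hasDerivAt.add h2).deriv
  rw [h.deriv_eq, deriv_add_const]

/-- The flow in another affine gauge. -/
theorem flow_shift {T : ℝ} {U₀ : ℝ → ℝ} {U φ : ℝ → ℝ → ℝ} (p q : ℝ)
    (H : IsFlowU 8 T U₀ U φ) :
    IsFlowU 8 T (fun x => U₀ x + (p + q * x)) (fun t x => U t x + (p + q * x)) φ where
  smoothU := by
    have h : ContDiff ℝ ∞ fun z : ℝ × ℝ => p + q * z.2 :=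
      contDiff_const.add (contDiff_const.mul contDiff_snd)
    exact H.smoothU.add h.contDiffOn
  smooth := H.smooth
  profile := H.profile
  rel := by
    intro t ht x hx
    have h1 : ContDiffOn ℝ ∞ (U t) (Icc 0 1) := by
      have h2 : ContDiff ℝ ∞ fun y : ℝ => ((t, y) : ℝ × ℝ) := contDiff_const.prodMk contDiff_id
      exact H.smoothU.comp h2.contDiffOn fun y hy => ⟨ht, hy⟩
    have h3 : ∀ᶠ y in 𝓝 x, DifferentiableAt ℝ (U t) y := by
      filter_upwards [isOpen_Ioo.mem_nhds hx] with y hy
      exact (h1.contDiffAt (Icc_mem_nhds hy.1 hy.2)).differentiableAt (by simp)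
    have h4 := H.rel t ht x hx
    rw [deriv2_add_affine p q h3]
    exact h4
  flow := by
    intro t ht x hx
    exact (H.flow t ht x hx).add_const _
  init := by
    intro x hx
    show U 0 x + (p + q * x) = _
    rw [H.init x hx]

/-- **Localised blow-up in an arbitrarily short time, on an arbitrary background.** -/
theorem loc1DG {U₁ : ℝ → ℝ} (hU₁ : IsInit U₁) :
    ∃ K : ℝ, 0 ≤ K ∧ ∀ d : ℝ, 0 < d → d ≤ 1 / 2 → ∀ ε : ℝ, 0 < ε →
    ∃ T : ℝ, 0 < T ∧ T ≤ ε ∧ ∃ U₀ : ℝ → ℝ, IsInit U₀ ∧
      (∀ x ∈ Icc d 1, U₀ x = U₁ x) ∧ (∀ x ∈ Icc d 1, deriv U₀ x = deriv U₁ x) ∧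
      (∀ x ∈ Icc (0 : ℝ) 1, |U₀ x - U₁ x| ≤ K * d) ∧
      ∀ U φ : ℝ → ℝ → ℝ, ¬ IsFlowU 8 T U₀ U φ := by
  obtain ⟨K, hK, h⟩ := local8G hU₁
  refine ⟨K, hK, fun d hd hd2 ε hε => ?_⟩
  have hζ : CutB (fun x => smoothTransition (2 - 2 * x / d)) (d / 2) := by
    refine ⟨?_, by linarith, fun x hx => ?_, fun x hx => ?_, fun x => smoothTransition.nonneg _,
      fun x => smoothTransition.le_one _⟩
    · exact smoothTransition.contDiff.comp
        (contDiff_const.sub ((contDiff_const.mul contDiff_id).div_const d))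
    · apply smoothTransition.one_of_one_le
      have h1 : 2 * x / d ≤ 1 := by
        rw [div_le_one hd]
        linarith
      linarith
    · apply smoothTransition.zero_of_nonpos
      have h1 : 2 ≤ 2 * x / d := by
        rw [le_div_iff₀ hd]
        linarith
      linarith
  have hζ0 : ∀ x, d ≤ x → (fun x => smoothTransition (2 - 2 * x / d)) x = 0 := by
    intro x hx
    apply smoothTransition.zero_of_nonpos
    have h1 : 2 ≤ 2 * x / d := by
      rw [le_div_iff₀ hd]
      linarith
    linarith
  obtain ⟨T, hT, hTε, W, hW, hsh, hno⟩ := h _ (d / 2) hζ (by linarith) ε hε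
  obtain ⟨q, hq⟩ : ∃ q : ℝ, q = deriv U₁ d - deriv W d := ⟨_, rfl⟩
  obtain ⟨p, hp⟩ : ∃ p : ℝ, p = U₁ d - W d - q * d := ⟨_, rfl⟩
  have hW1 : ContDiff ℝ ∞ (deriv W) := (contDiff_infty_iff_deriv.1 hW.smooth).2
  have dW : ∀ x, HasDerivAt W (deriv W x) x := fun x =>
    ((hW.smooth.differentiable (by simp)) x).hasDerivAt
  have dW1 : ∀ x, HasDerivAt (deriv W) (deriv (deriv W) x) x := fun x =>
    ((hW1.differentiable (by simp)) x).hasDerivAt
  have hY1 : ContDiff ℝ ∞ (deriv U₁) := (contDiff_infty_iff_deriv.1 hU₁.smooth).2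
  have dY : ∀ x, HasDerivAt U₁ (deriv U₁ x) x := fun x =>
    ((hU₁.smooth.differentiable (by simp)) x).hasDerivAt
  have dY1 : ∀ x, HasDerivAt (deriv U₁) (deriv (deriv U₁) x) x := fun x =>
    ((hY1.differentiable (by simp)) x).hasDerivAt
  have dL : ∀ x : ℝ, HasDerivAt (fun y : ℝ => p + q * y) q x := fun x => by
    simpa only [mul_one] using ((hasDerivAt_id' x).const_mul q).const_add p
  set V : ℝ → ℝ := fun x => W x + (p + q * x) with hV
  have dV : ∀ x, HasDerivAt V (deriv W x + q) x := fun x => (dW x).add (dL x)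
  have eV1 : deriv V = fun x => deriv W x + q := funext fun x => (dV x).deriv
  have dV1 : ∀ x, HasDerivAt (deriv V) (deriv (deriv W) x) x := fun x => by
    rw [eV1]
    exact (dW1 x).add_const q
  have eV2 : deriv (deriv V) = deriv (deriv W) := funext fun x => (dV1 x).deriv
  -- the difference `D = V - U₁`, `E = D'`
  set D : ℝ → ℝ := fun x => V x - U₁ x with hD
  set E : ℝ → ℝ := fun x => deriv W x + q - deriv U₁ x with hE
  have dD : ∀ x, HasDerivAt D (E x) x := fun x => (dV x).sub (dY x)
  have dE : ∀ x, HasDerivAt E (deriv (deriv W) x - deriv (deriv U₁) x) x := fun x =>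
    ((dW1 x).add_const q).sub (dY1 x)
  have hDd : D d = 0 := by
    simp only [hD, hV, hp]
    ring
  have hEd : E d = 0 := by
    simp only [hE, hq]
    ring
  have h1 : ∀ x ∈ Icc d 1, E x = 0 := by
    intro x hx
    have h2 := constant_of_has_deriv_right_zero (f := E) (a := d) (b := 1)
      (fun y _ => (dE y).continuousAt.continuousWithinAt)
      (by
        intro y hy
        have h3 := (hsh y (lt_of_lt_of_le hd hy.1) hy.2).1 (hζ0 y hy.1)
        have h4 := (dE y).hasDerivWithinAt (s := Ici y)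
        rwa [h3, sub_self] at h4) x hx
    rw [h2, hEd]
  have h0 : ∀ x ∈ Icc d 1, D x = 0 := by
    intro x hx
    have h2 := constant_of_has_deriv_right_zero (f := D) (a := d) (b := 1)
      (fun y _ => (dD y).continuousAt.continuousWithinAt)
      (by
        intro y hy
        have h3 := h1 y ⟨hy.1, hy.2.le⟩
        have h4 := (dD y).hasDerivWithinAt (s := Ici y)
        rwa [h3] at h4) x hx
    rw [h2, hDd]
  refine ⟨T, hT, hTε, V, ⟨hW.smooth.add (contDiff_const.add (contDiff_const.mul contDiff_id)), ?_⟩,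
    ?_, ?_, ?_, ?_⟩
  · intro x hx
    rw [eV2]
    exact hW.pos x hx
  · intro x hx
    exact sub_eq_zero.1 (h0 x hx)
  · intro x hx
    rw [eV1]
    exact sub_eq_zero.1 (h1 x hx)
  · intro x hx
    show |D x| ≤ K * d
    rcases le_or_gt d x with hxd | hxd
    · rw [h0 x ⟨hxd, hx.2⟩, abs_zero]
      positivity
    · -- `w(y) = D(y) + (x - y) E(y)`
      have hw : ∀ y ∈ Icc x d, HasDerivWithinAt (fun y => D y + (x - y) * E y)
          ((x - y) * (deriv (deriv W) y - deriv (deriv U₁) y)) (Icc x d) y := by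
        intro y _
        have e2 : HasDerivAt (fun y : ℝ => x - y) (-1) y := by
          simpa only using (hasDerivAt_id' y).const_sub x
        have e3 := ((dD y).add (e2.mul (dE y))).hasDerivWithinAt (s := Icc x d)
        refine e3.congr_deriv ?_
        ring
      have hb : ∀ y ∈ Ico x d, ‖(x - y) * (deriv (deriv W) y - deriv (deriv U₁) y)‖ ≤ K := by
        intro y hy
        rcases (hx.1.trans hy.1).eq_or_lt with h5 | h5
        · have h6 : x = 0 := le_antisymm (by rw [h5]; exact hy.1) hx.1
          rw [← h5, h6, sub_zero, zero_mul, norm_zero]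
          exact hK
        · have h7 := (hsh y h5 (by linarith [hy.2])).2
          rw [Real.norm_eq_abs, abs_mul]
          rw [abs_mul, abs_of_pos h5] at h7
          refine le_trans (mul_le_mul_of_nonneg_right ?_ (abs_nonneg _)) h7
          rw [abs_sub_comm, abs_of_nonneg (by linarith [hy.1])]
          linarith [hx.1]
      have h8 := norm_image_sub_le_of_norm_deriv_le_segment' hw hb d ⟨hxd.le, le_rfl⟩
      have e9 : (D d + (x - d) * E d) - (D x + (x - x) * E x) = -D x := by
        rw [hDd, hEd]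
        ring
      rw [e9, norm_neg, Real.norm_eq_abs] at h8
      refine h8.trans (mul_le_mul_of_nonneg_left ?_ hK)
      linarith [hx.1]
  · intro U φ H
    have H' := flow_shift (-p) (-q) H
    have e : (fun x => V x + (-p + -q * x)) = W := by
      funext x
      simp only [hV]
      ring
    rw [e] at H'
    exact hno _ _ H'

end P264.L
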