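import Vale.Agent.P264.H849.Real
import Vale.Agent.P264.H403.Seeley

/-!
# P264 / H849 / Inv : every invariant Kähler metric in the hyperplane class has an admissible
symplectic potential
-/

set_option linter.all false

open Set
open scoped ContDiff

namespace P264.L

open P264.Geo

/-- **Realisation, converse.** -/
theorem inv_realise {n : ℕ} (hn : 2 ≤ n) {h₁ : Cm (n + 1) → ℝ} (hK : IsKahler n h₁)
    (hI : Inv h₁) :
    ∃ U₁ : ℝ → ℝ, P264.B.IsInit U₁ ∧ ∀ Z : Cm (n + 1), Z ≠ 0 → h₁ Z = P264.Geo.R.h0 U₁ Z :=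
  inv_realise_of_ext (fun _ hf => P264.Seeley.exists_ext01 hf) hn hK hI

end P264.L
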