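import Vale.Agent.P264.H849.Stat

/-!
# P264 / H849 / Real : every invariant Kähler metric in the hyperplane class has a symplectic
potential

If the symplectic potential `UG` of the static radial data extends to a smooth function `F` on `ℝ`,
then `F` is admissible and `h₁ = P264.Geo.R.h0 F` away from the origin.
-/

set_option linter.all false

open Set Filter Topology
open scoped ContDiff ComplexOrder

noncomputable section

namespace P264.L

open P264.Geo P264.Geo.RA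

variable {n : ℕ} {ψ ψi : ℝ → ℝ → ℝ}

theorem eq_h0_of_ext {h₁ : Cm (n + 1) → ℝ} (hn : 2 ≤ n) (hk : IsKahler n h₁) (hi : Inv h₁)
    (h : SData ψ ψi) (hψ : ∀ s : ℝ, ψ 0 (s ^ 2) = Real.log (h₁ (ray s))) {F : ℝ → ℝ}
    (hF : ContDiff ℝ ∞ F) (hFU : ∀ x ∈ Icc (0 : ℝ) 1, F x = UG ψ ψi 0 0 x) :
    ∀ Z : Cm (n + 1), Z ≠ 0 → h₁ Z = P264.Geo.R.h0 F Z := by
  have hU := (s_isInit h hF hFU).1
  -- on the ray
  have hray : ∀ s : ℝ, 0 < s → h₁ (ray s) = P264.Geo.R.h0 F (ray s : Cm (n + 1)) := by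
    intro s hs
    obtain ⟨x, hx, h1, h2⟩ := s_pot h hF hFU (r := s ^ 2) (by positivity)
    have h3 := P264.Geo.R.hasPot_h0 (n := n) (by omega) hU x hx
    rw [h1, Real.sqrt_sq hs.le, ← h2, hψ] at h3
    exact (Real.log_injOn_pos (P264.Geo.R.h0_pos F (ray_ne s)) (hk.pos _ (ray_ne s)) h3).symm
  -- generic points
  have hgen : ∀ Z : Cm (n + 1), Z 0 ≠ 0 → (∃ i : Fin n, Z i.succ ≠ 0) →
      h₁ Z = P264.Geo.R.h0 F Z := by
    rintro Z hZ0 ⟨i, hZi⟩
    have hc : (Z 0)⁻¹ ≠ 0 := inv_ne_zero hZ0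
    obtain ⟨W, hW⟩ : ∃ W, W = (Z 0)⁻¹ • Z := ⟨_, rfl⟩
    have hZ : Z ≠ 0 := fun h => hZ0 (by rw [h]; rfl)
    have e1 := hk.homog (Z 0)⁻¹ Z hZ hc
    have e2 := P264.Geo.R.h0_homog hU (Z 0)⁻¹ hZ hc
    rw [← hW] at e1 e2
    have hW0 : W 0 = 1 := by
      rw [hW]
      simp only [Pi.smul_apply, smul_eq_mul]
      exact inv_mul_cancel₀ hZ0
    have hWne : W ≠ 0 := fun h => by
      rw [h] at hW0
      exact zero_ne_one hW0
    have hWi : W i.succ ≠ 0 := by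
      rw [hW]
      simp only [Pi.smul_apply, smul_eq_mul]
      exact mul_ne_zero hc hZi
    have hs : 0 < ∑ i : Fin n, ‖W i.succ‖ ^ 2 := by
      refine lt_of_lt_of_le (b := ‖W i.succ‖ ^ 2) (by positivity) ?_
      exact Finset.single_le_sum (f := fun i : Fin n => ‖W i.succ‖ ^ 2)
        (fun j _ => by positivity) (Finset.mem_univ i)
    have hWr : ∀ g : Cm (n + 1) → ℝ, Inv g → g W = g (ray (√(∑ i : Fin n, ‖W i.succ‖ ^ 2))) := by
      intro g hg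
      refine hg _ _ hWne (ray_ne _) ?_ ?_
      · rw [norm_ray_zero, hW0, norm_one]
      · rw [sum_ray (by omega), Real.sq_sqrt hs.le]
    have h4 : ‖(Z 0)⁻¹‖ ^ 2 ≠ 0 := pow_ne_zero 2 (norm_ne_zero_iff.2 hc)
    refine mul_left_cancel₀ h4 ?_
    rw [← e1, ← e2, hWr _ hi, hWr _ (P264.Geo.R.h0_inv F)]
    exact hray _ (Real.sqrt_pos.2 hs)
  -- continuity
  intro Z hZ
  obtain ⟨V, hV⟩ : ∃ V : Cm (n + 1), V = fun _ => 1 := ⟨_, rfl⟩
  have hline : Tendsto (fun t : ℝ => Z + t • V) (𝓝[≠] 0) (𝓝 Z) := by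
    have h1 : Continuous fun t : ℝ => Z + t • V := by fun_prop
    have h2 := (h1.tendsto 0).mono_left (nhdsWithin_le_nhds (s := {0}ᶜ))
    simpa only [zero_smul, add_zero] using h2
  have hne : ∀ i : Fin (n + 1), ∀ᶠ t : ℝ in 𝓝[≠] 0, (Z + t • V) i ≠ 0 := by
    intro i
    have h1 : ∀ᶠ t : ℝ in 𝓝[≠] 0, t ≠ -(Z i).re := by
      by_cases h0 : -(Z i).re = 0
      · rw [h0]
        exact self_mem_nhdsWithin
      · exact eventually_ne_nhdsWithin (fun h => h0 h.symm)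
    filter_upwards [h1] with t ht h2
    apply ht
    rw [hV] at h2
    have h3 := congrArg Complex.re h2
    simp only [Pi.add_apply, Pi.smul_apply, Complex.add_re, Complex.real_smul, mul_one,
      Complex.ofReal_re, Complex.zero_re] at h3
    linarith
  have hn0 : 0 < n := by omega
  have hev : ∀ᶠ t : ℝ in 𝓝[≠] 0, h₁ (Z + t • V) = P264.Geo.R.h0 F (Z + t • V) := by
    filter_upwards [hne 0, hne (Fin.succ ⟨0, hn0⟩)] with t h0 h1
    exact hgen _ h0 ⟨_, h1⟩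
  have c1 : Tendsto (fun t : ℝ => h₁ (Z + t • V)) (𝓝[≠] 0) (𝓝 (h₁ Z)) := by
    have h1 : ContinuousAt h₁ Z :=
      ((hk.smooth Z hZ).contDiffAt (isOpen_ne.mem_nhds hZ)).continuousAt
    exact h1.tendsto.comp hline
  have c2 : Tendsto (fun t : ℝ => P264.Geo.R.h0 F (Z + t • V)) (𝓝[≠] 0)
      (𝓝 (P264.Geo.R.h0 F Z)) := by
    have h1 : ContinuousAt (P264.Geo.R.h0 F : Cm (n + 1) → ℝ) Z :=
      (P264.Geo.R.h0_contDiffAt hU hZ).continuousAt
    exact h1.tendsto.comp hline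
  exact tendsto_nhds_unique c1 (c2.congr' (hev.mono fun t ht => ht.symm))

/-- **Realisation, converse**: every `U(n)`-invariant Kähler metric in the hyperplane class of `ℙⁿ`
comes from an admissible symplectic potential, provided smooth functions on `[0,1]` extend to `ℝ`. -/
theorem inv_realise_of_ext
    (hext : ∀ f : ℝ → ℝ, ContDiffOn ℝ ∞ f (Icc 0 1) →
      ∃ F : ℝ → ℝ, ContDiff ℝ ∞ F ∧ ∀ x ∈ Icc (0 : ℝ) 1, F x = f x)
    (hn : 2 ≤ n) {h₁ : Cm (n + 1) → ℝ} (hk : IsKahler n h₁) (hi : Inv h₁) :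
    ∃ F : ℝ → ℝ, P264.B.IsInit F ∧ ∀ Z : Cm (n + 1), Z ≠ 0 → h₁ Z = P264.Geo.R.h0 F Z := by
  obtain ⟨ψ, ψi, h, hψ⟩ := sdata_of_kahler hn hk hi
  obtain ⟨F, hF, hFU⟩ := hext _ (sUG_smooth h)
  exact ⟨F, (s_isInit h hF hFU).1, eq_h0_of_ext hn hk hi h hψ hF hFU⟩

end P264.L

end
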