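import Vale.Agent.P264.Bdl.B4

/-!
# P264 / H849 / Stat : static radial data of an invariant Kähler metric on `ℙⁿ`

The part of `P264.Geo.radData_of_flow` and of `P264.Geo.RedB` that does not use the flow, for one
metric: its radial potential at the two ends, the momentum coordinate and the symplectic potential.
-/

set_option linter.all false

open Set Filter Topology
open scoped ContDiff ComplexOrder

noncomputable section

namespace P264.L

open P264.Geo P264.Geo.RA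

variable {n : ℕ} {ψ ψi : ℝ → ℝ → ℝ}

/-- Static radial data (the time variable in `[0,1]` is a dummy). -/
structure SData (ψ ψi : ℝ → ℝ → ℝ) : Prop where
  end0 : End1 1 ψ
  endi : End1 1 ψi
  rel : ∀ t ∈ Icc (0 : ℝ) 1, ∀ r, 0 < r → ψ t r = Real.log r + ψi t (1 / r)

lemma logS_smooth {h₁ : Cm (n + 1) → ℝ} (h0 : IsKahler n h₁) {γ : ℝ → Cm (n + 1)}
    (hγ : ContDiff ℝ ∞ γ) (hγ0 : ∀ s, γ s ≠ 0) :
    SmU 1 (fun _ s => Real.log (h₁ (γ s))) := by
  have h1 : ContDiffOn ℝ ∞ (fun p : ℝ × ℝ => h₁ (γ p.2)) (Icc 0 1 ×ˢ univ) := by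
    refine h0.smooth.comp (g := h₁) (f := fun p : ℝ × ℝ => γ p.2)
      (hγ.comp contDiff_snd).contDiffOn fun p _ => hγ0 p.2
  exact ContDiffOn.log h1 fun p hp => (h0.pos _ (hγ0 p.2)).ne'

/-- Radial data of an invariant Kähler metric. -/
theorem sdata_of_kahler {h₁ : Cm (n + 1) → ℝ} (hn : 2 ≤ n) (hk : IsKahler n h₁) (hi : Inv h₁) :
    ∃ ψ ψi : ℝ → ℝ → ℝ, SData ψ ψi ∧ ∀ s : ℝ, ψ 0 (s ^ 2) = Real.log (h₁ (ray s)) := by
  obtain ⟨m, rfl⟩ : ∃ m, n = m + 1 := ⟨n - 1, by omega⟩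
  have hT : (0 : ℝ) < 1 := one_pos
  set f : ℝ → ℝ → ℝ := fun _ s => Real.log (h₁ (ray s)) with hfdef
  set fi : ℝ → ℝ → ℝ := fun _ s => Real.log (h₁ (rayi s)) with hfidef
  have hfs : SmU 1 f := logS_smooth hk ray_contDiff ray_ne
  have hfis : SmU 1 fi := logS_smooth hk rayi_contDiff (rayi_ne (by omega))
  have hfe : ∀ t ∈ Icc (0 : ℝ) 1, ∀ s, f t (-s) = f t s := fun t ht s => by
    simp only [hfdef]
    rw [ray_even (h := h₁) (by omega) hi s]
  have hfie : ∀ t ∈ Icc (0 : ℝ) 1, ∀ s, fi t (-s) = fi t s := fun t ht s => by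
    simp only [hfidef]
    rw [rayi_even (h := h₁) (by omega) hi s]
  -- positivity at the two ends
  have hpos0 : ∀ t ∈ Icc (0 : ℝ) 1, ∀ r ∈ Ici (0 : ℝ),
      0 < dx (Ici 0) (XX fun t r => f t (√r)) t r := by
    intro t ht r hr
    rw [dx_XX_sqrt hT hfs ht hfe hr]
    have h1 := cHess00 hT hfs ht (hfe t ht) (s := √r) (loc_contDiffAt hk 0 _) (fun w => by
      refine (congrArg Real.log (inv_chart0 (h := h₁) (by omega) hi (Pi.single 0 w))).trans ?_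
      rw [nsq_single', Real.sqrt_sq (norm_nonneg w)])
    rw [Real.sq_sqrt hr] at h1
    rw [← h1]
    exact (Complex.pos_iff.1 ((hk.posDef 0 (Pi.single 0 ((√r : ℝ) : ℂ))).diag_pos (i := 0))).1
  have hposi : ∀ t ∈ Icc (0 : ℝ) 1, ∀ r ∈ Ici (0 : ℝ),
      0 < dx (Ici 0) (XX fun t r => fi t (√r)) t r := by
    intro t ht r hr
    rw [dx_XX_sqrt hT hfis ht hfie hr]
    have h1 := cHess00 hT hfis ht (hfie t ht) (s := √r) (loc_contDiffAt hk 1 _) (fun w => by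
      exact congrArg Real.log (inv_chart1 h₁ hi w))
    rw [Real.sq_sqrt hr] at h1
    rw [← h1]
    exact (Complex.pos_iff.1 ((hk.posDef 1 (Pi.single 0 ((√r : ℝ) : ℂ))).diag_pos (i := 0))).1
  refine ⟨fun t r => f t (√r), fun t r => fi t (√r), ⟨⟨sqrt_smooth hT hfs hfe, hpos0⟩,
    ⟨sqrt_smooth hT hfis hfie, hposi⟩, ?_⟩, ?_⟩
  · -- relation between the two ends
    intro t ht r hr
    have hs : 0 < √r := Real.sqrt_pos.2 hr
    have h1 := hk.homog (√r : ℝ) (rayi (1 / √r)) (rayi_ne (by omega) _)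
      (by exact_mod_cast hs.ne')
    rw [← rayi_ray hs] at h1
    have h2 : √(1 / r) = 1 / √r := by rw [Real.sqrt_div zero_le_one, Real.sqrt_one]
    have h3 : 0 < h₁ (rayi (1 / √r)) := hk.pos _ (rayi_ne (by omega) _)
    show f t (√r) = Real.log r + fi t (√(1 / r))
    simp only [hfdef, hfidef]
    rw [h1, h2, Complex.norm_real, Real.norm_eq_abs, sq_abs, Real.sq_sqrt hr.le,
      Real.log_mul hr.ne' h3.ne']
  · intro s
    show f 0 (√(s ^ 2)) = f 0 s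
    rw [Real.sqrt_sq_eq_abs]
    rcases abs_choice s with h | h
    · rw [h]
    · rw [h, hfe 0 ⟨le_rfl, zero_le_one⟩]

/-! ### the two ends agree in the middle -/

variable (h : SData ψ ψi)

include h in
theorem sXX_add {t : ℝ} (ht : t ∈ Icc (0 : ℝ) 1) {r : ℝ}
    (hr : 0 < r) : XX ψ t r + XX ψi t (1 / r) = 1 := by
  have h1 := agree_hasDerivAt h.end0.smooth ht hr
  have hr' : 0 < 1 / r := one_div_pos.2 hr
  have h2 := agree_hasDerivAt h.endi.smooth ht hr'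
  have h3 : HasDerivAt (fun s => Real.log s + ψi t (1 / s))
      (r⁻¹ + dx (Ici 0) ψi t (1 / r) * (-(1 / r ^ 2))) r :=
    (Real.hasDerivAt_log hr.ne').add (h2.comp r (agree_inv_deriv hr))
  have h4 : ψ t =ᶠ[𝓝 r] fun s => Real.log s + ψi t (1 / s) := by
    filter_upwards [Ioi_mem_nhds hr] with s hs
    exact h.rel t ht s hs
  have h5 := h1.unique (h3.congr_of_eventuallyEq h4)
  simp only [XX]
  rw [h5]
  field_simp
  ring

include h in
theorem sXX_lim : ∀ t ∈ Icc (0 : ℝ) 1, Tendsto (XX ψ t) atTop (𝓝 1) := by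
  intro t ht
  refine agree_lim one_pos h.endi ht fun r hr => ?_
  have := sXX_add h ht hr
  linarith

include h in
theorem sXXi_lim : ∀ t ∈ Icc (0 : ℝ) 1, Tendsto (XX ψi t) atTop (𝓝 1) := by
  intro t ht
  refine agree_lim one_pos h.end0 ht fun r hr => ?_
  have := sXX_add h ht (one_div_pos.2 hr)
  rw [one_div_one_div] at this
  linarith

include h in
theorem sMom0 : IsMom 1 (XX ψ) := isMom_XX one_pos h.end0 (sXX_lim h)

include h in
theorem sMomi : IsMom 1 (XX ψi) := isMom_XX one_pos h.endi (sXXi_lim h)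

include h in
theorem s_agree_GX {t : ℝ} (ht : t ∈ Icc (0 : ℝ) 1) {x : ℝ}
    (hx : x ∈ Ioo (0 : ℝ) 1) : GX (XX ψi) t (1 - x) = 1 / GX (XX ψ) t x := by
  have hr := (sMom0 h).GX_pos ht hx
  have h1 := (sMom0 h).X_GX ht (Ioo_subset_Ico_self hx)
  have h2 := sXX_add h ht hr
  rw [h1] at h2
  have h3 : 1 - x = XX ψi t (1 / GX (XX ψ) t x) := by linarith
  rw [h3]
  exact (sMomi h).GX_X ht (one_div_pos.2 hr).le

include h in
theorem sU1_agree {t : ℝ} (ht : t ∈ Icc (0 : ℝ) 1) {x : ℝ}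
    (hx : x ∈ Ioo (0 : ℝ) 1) (c' : ℝ) : U1 ψ c' t x = U1 ψi c' t (1 - x) := by
  have hr := (sMom0 h).GX_pos ht hx
  have hG := s_agree_GX h ht hx
  have h1 := (sMom0 h).X_GX ht (Ioo_subset_Ico_self hx)
  have h2 := sXX_add h ht hr
  have h3 := h.rel t ht _ hr
  rw [h1] at h2
  unfold U1
  rw [hG, h3]
  simp only [XX] at h1 h2
  generalize GX (XX ψ) t x = r at hr h1 h2 h3 ⊢
  have e1 : dx (Ici 0) ψ t r = x / r := by
    rw [eq_div_iff hr.ne']
    linarith only [h1]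
  have e2 : dx (Ici 0) ψi t (1 / r) = (1 - x) * r := by
    have : 1 / r * dx (Ici 0) ψi t (1 / r) = 1 - x := by linarith only [h2]
    rw [← this]
    (clear * - hr; field_simp)
  have hx1 : 0 < 1 - x := by linarith only [hx.2]
  rw [e1, e2, Real.log_div hx.1.ne' hr.ne', Real.log_mul hx1.ne' hr.ne', sub_sub_cancel]
  ring

include h in
theorem sUG_smooth : ContDiffOn ℝ ∞ (UG ψ ψi 0 0) (Icc 0 1) := by
  have h1 : ContDiffOn ℝ ∞ (fun p : ℝ × ℝ => UG ψ ψi 0 p.1 p.2) (Icc 0 1 ×ˢ Icc 0 1) :=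
    glue_smooth one_pos (U1_smooth h.end0 (sMom0 h) 0) (U1_smooth h.endi (sMomi h) 0)
      fun _ ht _ hx => sU1_agree h ht hx 0
  exact slice_smooth (f := UG ψ ψi 0) h1 ⟨le_rfl, zero_le_one⟩

include h in
/-- A smooth extension of the symplectic potential is admissible. -/
theorem s_isInit {F : ℝ → ℝ} (hF : ContDiff ℝ ∞ F) (hFU : ∀ x ∈ Icc (0 : ℝ) 1, F x = UG ψ ψi 0 0 x) :
    P264.B.IsInit F ∧ ∀ x ∈ Ioo (0 : ℝ) 1, F x = U1 ψ 0 0 x ∧
      deriv F x = Real.log (GX (XX ψ) 0 x) - Real.log x + Real.log (1 - x) := by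
  have ht : (0 : ℝ) ∈ Icc (0 : ℝ) 1 := ⟨le_rfl, zero_le_one⟩
  have hm0 := sMom0 h
  have e0 : ∀ x ∈ Ioo (0 : ℝ) 1, F x = U1 ψ 0 0 x := fun x hx => by
    rw [hFU x ⟨hx.1.le, hx.2.le⟩, redB_UG_of_lt hx.2]
  have e1 : ∀ x ∈ Ioo (0 : ℝ) 1,
      deriv F x = Real.log (GX (XX ψ) 0 x) - Real.log x + Real.log (1 - x) := by
    intro x hx
    have h1 : F =ᶠ[𝓝 x] U1 ψ 0 0 := by
      filter_upwards [Ioo_mem_nhds hx.1 hx.2] with y hy
      exact e0 y hy
    rw [h1.deriv_eq]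
    exact (U1_dx h.end0 hm0 0 ht hx).deriv
  refine ⟨⟨hF, ?_⟩, fun x hx => ⟨e0 x hx, e1 x hx⟩⟩
  intro x hx
  rcases hx.1.eq_or_lt with hx0 | hx0
  · rw [← hx0]
    norm_num
  rcases hx.2.eq_or_lt with hx1 | hx1
  · rw [hx1]
    norm_num
  have hxx : x ∈ Ioo (0 : ℝ) 1 := ⟨hx0, hx1⟩
  have h2 : deriv F =ᶠ[𝓝 x]
      fun y => Real.log (GX (XX ψ) 0 y) - Real.log y + Real.log (1 - y) := by
    filter_upwards [Ioo_mem_nhds hx0 hx1] with y hy
    exact e1 y hy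
  rw [h2.deriv_eq, (U1_dxx h.end0 hm0 ht hxx).deriv]
  have h3 : 0 < phi1 ψ 0 x := phi1_pos h.end0 hm0 ht hxx
  have hx1' : 0 < 1 - x := sub_pos.2 hx1
  have h4 : 1 + x * (1 - x) * (1 / phi1 ψ 0 x - 1 / x - 1 / (1 - x)) =
      x * (1 - x) / phi1 ψ 0 x := by
    field_simp
    ring
  rw [h4]
  exact div_pos (mul_pos hx0 hx1') h3

include h in
/-- The radial potential is recovered from the symplectic potential. -/
theorem s_pot {F : ℝ → ℝ} (hF : ContDiff ℝ ∞ F) (hFU : ∀ x ∈ Icc (0 : ℝ) 1, F x = UG ψ ψi 0 0 x)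
    {r : ℝ} (hr : 0 < r) : ∃ x ∈ Ioo (0 : ℝ) 1, x / (1 - x) * Real.exp (deriv F x) = r ∧
      ψ 0 r = -Real.log (1 - x) + x * deriv F x - F x := by
  have ht : (0 : ℝ) ∈ Icc (0 : ℝ) 1 := ⟨le_rfl, zero_le_one⟩
  have hm0 := sMom0 h
  obtain ⟨hx, hx1⟩ := hm0.X_pos ht hr
  have hxx : XX ψ 0 r ∈ Ioo (0 : ℝ) 1 := ⟨hx, hx1⟩
  have hG : GX (XX ψ) 0 (XX ψ 0 r) = r := hm0.GX_X ht hr.le
  obtain ⟨e0, e1⟩ := (s_isInit h hF hFU).2 _ hxx
  have hP := psi_r_pos one_pos h.end0 ht hr.le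
  have hx1' : 0 < 1 - XX ψ 0 r := sub_pos.2 hx1
  have e2 : Real.log (dx (Ici 0) ψ 0 r) = Real.log (XX ψ 0 r) - Real.log r := by
    rw [XX, Real.log_mul hr.ne' hP.ne']
    ring
  refine ⟨_, hxx, ?_, ?_⟩
  · rw [e1, hG, Real.exp_add, Real.exp_sub, Real.exp_log hr, Real.exp_log hx, Real.exp_log hx1']
    field_simp
  · rw [e0, e1, U1, hG, e2]
    ring

end P264.L

end
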